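import Mathlib

/-!
A duality bound for character sums over several primitive moduli, and the moment estimate for
sums over primes that follows from it.
-/

namespace Vale.Agent.P012

open Finset

theorem norm_periodic_sum_le {q : ℕ} (hq : 0 < q) (g : ℕ → ℂ) (hper : Function.Periodic g q)
    (hzero : ∑ n ∈ range q, g n = 0) (hb : ∀ n, ‖g n‖ ≤ 1) (N : ℕ) :
    ‖∑ n ∈ range N, g n‖ ≤ q := by
  induction N using Nat.strong_induction_on with
  | _ N ih =>
    by_cases h : q ≤ N
    · obtain ⟨M, rfl⟩ := Nat.exists_eq_add_of_le h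
      rw [Finset.sum_range_add, hzero, zero_add]
      have : ∀ x, g (q + x) = g x := fun x => by rw [add_comm]; exact hper x
      simp only [this]
      exact ih M (by omega)
    · calc ‖∑ n ∈ range N, g n‖ ≤ ∑ n ∈ range N, ‖g n‖ := norm_sum_le _ _
        _ ≤ ∑ n ∈ range N, (1 : ℝ) := Finset.sum_le_sum fun n _ => hb n
        _ ≤ q := by
          simp only [Finset.sum_const, Finset.card_range, nsmul_eq_mul, mul_one]
          exact_mod_cast (by omega : N ≤ q)

theorem sum_range_zmod {q : ℕ} [NeZero q] (f : ZMod q → ℂ) :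
    ∑ n ∈ range q, f (n : ZMod q) = ∑ a : ZMod q, f a := by
  refine Finset.sum_bij' (fun n _ => (n : ZMod q)) (fun a _ => a.val) ?_ ?_ ?_ ?_ ?_
  · intro n _; exact Finset.mem_univ _
  · intro a _; exact Finset.mem_range.2 (ZMod.val_lt a)
  · intro n hn; exact ZMod.val_natCast_of_lt (Finset.mem_range.1 hn)
  · intro a _; exact ZMod.natCast_zmod_val a
  · intro n _; rfl

theorem changeLevel_natCast {f m : ℕ} (hm : f ∣ m) (χ : DirichletCharacter ℂ f) {n : ℕ}
    (hn : Nat.Coprime n m) :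
    DirichletCharacter.changeLevel hm χ (n : ZMod m) = χ (n : ZMod f) := by
  have h := DirichletCharacter.changeLevel_eq_cast_of_dvd' χ hm
    (a := (n : ℤ)) (Nat.isCoprime_iff_coprime.2 hn)
  simpa using h

theorem natCast_eq_zero_of_not_coprime {f : ℕ} (χ : DirichletCharacter ℂ f) {n : ℕ}
    (hn : ¬ Nat.Coprime n f) : χ (n : ZMod f) = 0 :=
  χ.map_nonunit (fun h => hn ((ZMod.isUnit_iff_coprime n f).1 h))

/-- Incomplete sums of a product of two primitive characters of distinct moduli are bounded by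
the product of the moduli. -/
theorem norm_pair_sum_le {f g : ℕ} (hf : 0 < f) (hg : 0 < g) (hfg : f ≠ g)
    (χ : DirichletCharacter ℂ f) (ψ : DirichletCharacter ℂ g)
    (hχ : χ.IsPrimitive) (hψ : ψ.IsPrimitive) (N : ℕ) :
    ‖∑ n ∈ range N, χ (n : ZMod f) * (starRingEnd ℂ) (ψ (n : ZMod g))‖ ≤ (f * g : ℕ) := by
  haveI : NeZero (f * g) := ⟨(Nat.mul_pos hf hg).ne'⟩
  set φ : DirichletCharacter ℂ (f * g) :=
    DirichletCharacter.changeLevel (Dvd.intro g rfl) χ *
      (DirichletCharacter.changeLevel (Dvd.intro_left f rfl) ψ)⁻¹ with hφdef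
  have hφ : φ ≠ 1 := by
    intro h
    rw [hφdef, mul_inv_eq_one] at h
    have h2 := congrArg DirichletCharacter.conductor h
    rw [DirichletCharacter.conductor_changeLevel, DirichletCharacter.conductor_changeLevel] at h2
    exact hfg (hχ.symm.trans (h2.trans hψ))
  have hval : ∀ n : ℕ, χ (n : ZMod f) * (starRingEnd ℂ) (ψ (n : ZMod g)) =
      φ (n : ZMod (f * g)) := by
    intro n
    by_cases hn : Nat.Coprime n (f * g)
    · rw [hφdef, MulChar.mul_apply, ← MulChar.star_apply', changeLevel_natCast _ _ hn,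
        changeLevel_natCast _ _ hn]
      rfl
    · rw [natCast_eq_zero_of_not_coprime φ hn]
      rw [Nat.coprime_mul_iff_right, not_and_or] at hn
      rcases hn with h | h
      · rw [natCast_eq_zero_of_not_coprime χ h, zero_mul]
      · rw [natCast_eq_zero_of_not_coprime ψ h, map_zero, mul_zero]
  simp only [hval]
  refine norm_periodic_sum_le (Nat.mul_pos hf hg) _ ?_ ?_ ?_ N
  · intro n
    show φ ((n + f * g : ℕ) : ZMod (f * g)) = φ (n : ZMod (f * g))
    simp
  · rw [sum_range_zmod (fun a => φ a)]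
    exact MulChar.sum_eq_zero_of_ne_one hφ
  · exact fun n => φ.norm_le_one _

/-- Duality (Halász–Montgomery) with the trivial bound for incomplete sums. -/
theorem duality (X : Finset ℕ) (χ : (f : ℕ) → DirichletCharacter ℂ f) (N : ℕ) (a : ℕ → ℂ)
    (B T : ℝ) (hT : 0 ≤ T)
    (hX : ∀ f ∈ X, 0 < f ∧ (χ f).IsPrimitive ∧ ((f : ℝ)) ^ 2 ≤ B)
    (hbig : ∀ f ∈ X, T ≤ ‖∑ n ∈ range N, a n * χ f (n : ZMod f)‖) :
    ((X.card : ℝ) * T) ^ 2 ≤
      (∑ n ∈ range N, ‖a n‖ ^ 2) * ((X.card : ℝ) * N + (X.card : ℝ) ^ 2 * B) := by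
  rcases X.eq_empty_or_nonempty with h | hne
  · simp [h]
  have hB : 0 ≤ B := by
    obtain ⟨f, hf⟩ := hne
    exact le_trans (sq_nonneg _) (hX f hf).2.2
  set S : ℕ → ℂ := fun f => ∑ n ∈ range N, a n * χ f (n : ZMod f) with hS
  set c : ℕ → ℂ := fun f => (starRingEnd ℂ) (S f) / (‖S f‖ : ℂ) with hcdef
  have hc : ∀ f, ‖c f‖ ≤ 1 := by
    intro f
    rw [hcdef]
    by_cases h : ‖S f‖ = 0
    · simp [h]
    · simp [h]
  have hcS : ∀ f, c f * S f = (‖S f‖ : ℂ) := by
    intro f
    rw [hcdef]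
    by_cases h : ‖S f‖ = 0
    · rw [norm_eq_zero] at h; simp [h]
    · have h' : (‖S f‖ : ℂ) ≠ 0 := by exact_mod_cast h
      rw [div_mul_eq_mul_div, Complex.conj_mul']
      field_simp
  set G : ℕ → ℂ := fun n => ∑ f ∈ X, c f * χ f (n : ZMod f) with hG
  have h1 : ((∑ f ∈ X, ‖S f‖ : ℝ) : ℂ) = ∑ n ∈ range N, a n * G n := by
    push_cast
    rw [← Finset.sum_congr rfl fun f _ => hcS f]
    simp only [hS, hG, Finset.mul_sum]
    rw [Finset.sum_comm]
    refine Finset.sum_congr rfl fun n _ => Finset.sum_congr rfl fun f _ => ?_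
    ring
  have h2 : (X.card : ℝ) * T ≤ ∑ n ∈ range N, ‖a n‖ * ‖G n‖ := by
    calc (X.card : ℝ) * T = ∑ _f ∈ X, T := by simp
      _ ≤ ∑ f ∈ X, ‖S f‖ := Finset.sum_le_sum hbig
      _ = ‖((∑ f ∈ X, ‖S f‖ : ℝ) : ℂ)‖ := by
          rw [Complex.norm_real, Real.norm_of_nonneg (Finset.sum_nonneg fun f _ => norm_nonneg _)]
      _ = ‖∑ n ∈ range N, a n * G n‖ := by rw [h1]
      _ ≤ ∑ n ∈ range N, ‖a n * G n‖ := norm_sum_le _ _
      _ = _ := by simp only [norm_mul]
  have h3 : ∑ n ∈ range N, ‖G n‖ ^ 2 ≤ (X.card : ℝ) * N + (X.card : ℝ) ^ 2 * B := by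
    have e : ((∑ n ∈ range N, ‖G n‖ ^ 2 : ℝ) : ℂ) = ∑ f ∈ X, ∑ g ∈ X,
        (c f * (starRingEnd ℂ) (c g)) *
          ∑ n ∈ range N, χ f (n : ZMod f) * (starRingEnd ℂ) (χ g (n : ZMod g)) := by
      have hG2 : ∀ n : ℕ, G n * (starRingEnd ℂ) (G n) = ∑ f ∈ X, ∑ g ∈ X,
          (c f * χ f (n : ZMod f)) * (starRingEnd ℂ) (c g * χ g (n : ZMod g)) := fun n => by
        rw [hG, map_sum, Finset.sum_mul_sum]
      push_cast
      simp only [← Complex.mul_conj', hG2, Finset.mul_sum]
      rw [Finset.sum_comm]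
      refine Finset.sum_congr rfl fun f _ => ?_
      rw [Finset.sum_comm]
      refine Finset.sum_congr rfl fun g _ => Finset.sum_congr rfl fun n _ => ?_
      rw [map_mul]
      ring
    calc ∑ n ∈ range N, ‖G n‖ ^ 2 = ‖((∑ n ∈ range N, ‖G n‖ ^ 2 : ℝ) : ℂ)‖ := by
          rw [Complex.norm_real, Real.norm_of_nonneg (Finset.sum_nonneg fun n _ => sq_nonneg _)]
      _ ≤ ∑ f ∈ X, ∑ g ∈ X, ((if f = g then (N : ℝ) else 0) + B) := by
          rw [e]
          refine le_trans (norm_sum_le _ _) (Finset.sum_le_sum fun f hf => ?_)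
          refine le_trans (norm_sum_le _ _) (Finset.sum_le_sum fun g hg => ?_)
          rw [norm_mul, norm_mul, Complex.norm_conj]
          refine le_trans (mul_le_of_le_one_left (norm_nonneg _)
            (mul_le_one₀ (hc f) (norm_nonneg _) (hc g))) ?_
          by_cases h : f = g
          · subst h
            rw [if_pos rfl]
            refine le_trans (norm_sum_le _ _) ?_
            refine le_trans (Finset.sum_le_card_nsmul _ _ (1 : ℝ) fun n _ => ?_) ?_
            · rw [norm_mul, Complex.norm_conj]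
              exact mul_le_one₀ ((χ f).norm_le_one _) (norm_nonneg _) ((χ f).norm_le_one _)
            · simpa using hB
          · rw [if_neg h, zero_add]
            refine le_trans (norm_pair_sum_le (hX f hf).1 (hX g hg).1 h _ _
              (hX f hf).2.1 (hX g hg).2.1 N) ?_
            push_cast
            nlinarith [(hX f hf).2.2, (hX g hg).2.2, sq_nonneg ((f : ℝ) - g)]
      _ = _ := by
          simp only [Finset.sum_add_distrib, Finset.sum_ite_eq, Finset.sum_const, nsmul_eq_mul]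
          rw [Finset.sum_ite_of_true (fun x hx => hx)]
          simp only [Finset.sum_const, nsmul_eq_mul]
          ring
  calc ((X.card : ℝ) * T) ^ 2 ≤ (∑ n ∈ range N, ‖a n‖ * ‖G n‖) ^ 2 :=
        pow_le_pow_left₀ (by positivity) h2 2
    _ ≤ (∑ n ∈ range N, ‖a n‖ ^ 2) * ∑ n ∈ range N, ‖G n‖ ^ 2 :=
        Finset.sum_mul_sq_le_sq_mul_sq _ _ _
    _ ≤ _ := mul_le_mul_of_nonneg_left h3 (Finset.sum_nonneg fun n _ => sq_nonneg _)

/-- The `r`-tuples from `S` with product `n`. -/
def tuples (S : Finset ℕ) (r n : ℕ) : Finset (Fin r → ℕ) :=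
  (Fintype.piFinset fun _ : Fin r => S).filter fun v => ∏ i, v i = n

theorem card_tuples_le (S : Finset ℕ) (hS : ∀ p ∈ S, p.Prime) (r n : ℕ) :
    (tuples S r n).card ≤ r.factorial := by
  classical
  rcases (tuples S r n).eq_empty_or_nonempty with h | ⟨v₀, hv₀⟩
  · simp [h]
  have key : ∀ v ∈ tuples S r n, (List.ofFn v).Perm n.primeFactorsList := by
    intro v hv
    rw [tuples, Finset.mem_filter, Fintype.mem_piFinset] at hv
    refine Nat.primeFactorsList_unique ?_ ?_
    · rw [List.prod_ofFn]; exact hv.2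
    · intro p hp
      obtain ⟨i, rfl⟩ := List.mem_ofFn.1 hp
      exact hS _ (hv.1 i)
  have hlen : n.primeFactorsList.length = r := by
    rw [← (key v₀ hv₀).length_eq, List.length_ofFn]
  calc (tuples S r n).card = ((tuples S r n).image fun v => List.ofFn v).card :=
        (Finset.card_image_of_injective _ List.ofFn_injective).symm
    _ ≤ n.primeFactorsList.permutations.toFinset.card := by
        refine Finset.card_le_card fun l hl => ?_
        obtain ⟨v, hv, rfl⟩ := Finset.mem_image.1 hl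
        rw [List.mem_toFinset, List.mem_permutations]
        exact key v hv
    _ ≤ n.primeFactorsList.permutations.length := List.toFinset_card_le _
    _ = r.factorial := by rw [List.length_permutations, hlen]

/-- Few moduli carry a primitive character with a large sum over the prime set `S`. -/
theorem few_large (S : Finset ℕ) (Y r : ℕ) (hS : ∀ p ∈ S, p.Prime ∧ p ≤ Y)
    (X : Finset ℕ) (χ : (f : ℕ) → DirichletCharacter ℂ f) (B T : ℝ) (hT : 0 ≤ T)
    (hX : ∀ f ∈ X, 0 < f ∧ (χ f).IsPrimitive ∧ ((f : ℝ)) ^ 2 ≤ B)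
    (hbig : ∀ f ∈ X, T ≤ ‖∑ p ∈ S, χ f (p : ZMod f)‖) :
    ((X.card : ℝ) * T ^ r) ^ 2 ≤ ((r.factorial : ℝ) * (S.card : ℝ) ^ r) *
      ((X.card : ℝ) * ((Y : ℝ) ^ r + 1) + (X.card : ℝ) ^ 2 * B) := by
  classical
  set a : ℕ → ℂ := fun n => ((tuples S r n).card : ℂ) with ha
  have hmem : ∀ v ∈ Fintype.piFinset (fun _ : Fin r => S),
      (∏ i, v i) ∈ range (Y ^ r + 1) := by
    intro v hv
    rw [Fintype.mem_piFinset] at hv
    have := Finset.prod_le_prod (s := Finset.univ) (f := v) (g := fun _ => Y)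
      (fun i _ => Nat.zero_le _) (fun i _ => (hS _ (hv i)).2)
    rw [Finset.mem_range]
    simp only [Finset.prod_const, Finset.card_univ, Fintype.card_fin] at this
    omega
  have hpow : ∀ (f : ℕ) (φ : DirichletCharacter ℂ f), (∑ p ∈ S, φ (p : ZMod f)) ^ r =
      ∑ n ∈ range (Y ^ r + 1), a n * φ (n : ZMod f) := by
    intro f φ
    rw [Finset.sum_pow', ← Finset.sum_fiberwise_of_maps_to hmem]
    refine Finset.sum_congr rfl fun n _ => ?_
    calc ∑ v ∈ (Fintype.piFinset fun _ : Fin r => S) with ∏ i, v i = n,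
          ∏ i, φ (v i : ZMod f) = ∑ _v ∈ tuples S r n, φ (n : ZMod f) := by
          refine Finset.sum_congr rfl fun v hv => ?_
          rw [← (Finset.mem_filter.1 hv).2, Nat.cast_prod, map_prod]
      _ = a n * φ (n : ZMod f) := by simp [ha]
  have hA : ∑ n ∈ range (Y ^ r + 1), ‖a n‖ ^ 2 ≤ (r.factorial : ℝ) * (S.card : ℝ) ^ r := by
    calc ∑ n ∈ range (Y ^ r + 1), ‖a n‖ ^ 2
        ≤ ∑ n ∈ range (Y ^ r + 1), (r.factorial : ℝ) * (tuples S r n).card := by
          refine Finset.sum_le_sum fun n _ => ?_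
          simp only [ha, Complex.norm_natCast, sq]
          refine mul_le_mul_of_nonneg_right ?_ (by positivity)
          exact_mod_cast card_tuples_le S (fun p hp => (hS p hp).1) r n
      _ = _ := by
          rw [← Finset.mul_sum]
          congr 1
          have h := Finset.card_eq_sum_card_fiberwise hmem
          rw [Fintype.card_piFinset_const] at h
          exact_mod_cast h.symm
  have hd := duality X χ (Y ^ r + 1) a B (T ^ r) (by positivity) hX (fun f hf => by
    rw [← hpow f (χ f), norm_pow]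
    exact pow_le_pow_left₀ hT (hbig f hf) r)
  refine le_trans hd ?_
  push_cast
  rcases X.eq_empty_or_nonempty with h | ⟨f, hf⟩
  · simp [h]
  · have hB : (0 : ℝ) ≤ B := le_trans (sq_nonneg _) (hX f hf).2.2
    exact mul_le_mul_of_nonneg_right hA (by positivity)

end Vale.Agent.P012
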