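import Vale.Agent.P012.Rep

/-!
Greedy steps with denominators `2 ^ e * m`, `m ≤ 2 ^ L`, followed by a mixed radix expansion.
-/

namespace Vale.Agent.P012

/-- Mixed radix expansion. -/
theorem rep_mixed (M R : ℕ) (hM : 0 < M)
    (piece : ∀ v C : ℕ, v ≤ R → 0 < C → Rep 4 ((v : ℚ) / ((M * C : ℕ) : ℚ)))
    (ls : List ℕ) : (∀ q ∈ ls, 0 < q ∧ q ≤ R) → ∀ r, r < ls.prod →
      Rep (4 * ls.length) ((r : ℚ) / ((M * ls.prod : ℕ) : ℚ)) := by
  induction ls with
  | nil =>
    intro _ r hr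
    simp at hr
    subst hr
    simpa using rep_zero 0
  | cons q t ih =>
    intro hq r hr
    obtain ⟨hq0, hqR⟩ := hq q List.mem_cons_self
    have ht0 : 0 < t.prod := List.prod_pos fun x hx => (hq x (List.mem_cons_of_mem _ hx)).1
    rw [List.prod_cons] at hr ⊢
    have hu : r / q < t.prod := by
      rw [Nat.div_lt_iff_lt_mul hq0, mul_comm]; exact hr
    have h1 := piece (r % q) (q * t.prod) (le_trans (Nat.mod_lt _ hq0).le hqR)
      (Nat.mul_pos hq0 ht0)
    have h2 := ih (fun x hx => hq x (List.mem_cons_of_mem _ hx)) (r / q) hu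
    have h3 := h1.add h2
    have e : (r : ℚ) / ((M * (q * t.prod) : ℕ) : ℚ) =
        ((r % q : ℕ) : ℚ) / ((M * (q * t.prod) : ℕ) : ℚ) +
          ((r / q : ℕ) : ℚ) / ((M * t.prod : ℕ) : ℚ) := by
      have : (r : ℚ) = ((r % q : ℕ) : ℚ) + (q : ℚ) * ((r / q : ℕ) : ℚ) := by
        exact_mod_cast (Nat.mod_add_div r q).symm
      rw [this]
      push_cast
      field_simp
    rw [e]
    refine h3.mono ?_
    rw [List.length_cons]
    omega

/-- `x` minus at most `j` unit fractions, with bounded radices for its denominator. -/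
def State (a b E L : ℕ) (j : ℕ) (x : ℚ) : Prop :=
  0 ≤ x ∧ ∃ (ls : List ℕ) (r : ℕ), ls.length ≤ j ∧ (∀ q ∈ ls, 0 < q ∧ q ≤ 2 ^ L) ∧
    x * ((b * 2 ^ E * ls.prod : ℕ) : ℚ) = (r : ℚ) ∧ Rep j ((a : ℚ) / b - x)

theorem State.mono {a b E L i j : ℕ} {x : ℚ} (h : State a b E L i x) (hij : i ≤ j) :
    State a b E L j x := by
  obtain ⟨hx, ls, r, h1, h2, h3, h4⟩ := h
  exact ⟨hx, ls, r, le_trans h1 hij, h2, h3, h4.mono hij⟩

theorem State.step {a b E L j : ℕ} {x : ℚ} (h : State a b E L j x) (e m : ℕ) (he : e ≤ E)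
    (hm : 0 < m) (hmL : m ≤ 2 ^ L) (hle : (1 : ℚ) / ((2 ^ e * m : ℕ) : ℚ) ≤ x) :
    State a b E L (j + 1) (x - 1 / ((2 ^ e * m : ℕ) : ℚ)) := by
  obtain ⟨-, ls, r, h1, h2, h3, h4⟩ := h
  set y : ℚ := 1 / ((2 ^ e * m : ℕ) : ℚ) with hy
  refine ⟨by linarith, m :: ls, r * m - b * 2 ^ (E - e) * ls.prod, by simpa using h1, ?_, ?_, ?_⟩
  · intro q hq
    rcases List.mem_cons.1 hq with rfl | hq
    · exact ⟨hm, hmL⟩
    · exact h2 q hq
  · have hE : 2 ^ E = 2 ^ e * 2 ^ (E - e) := by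
      rw [← pow_add, Nat.add_sub_cancel' he]
    have key : (x - y) * ((b * 2 ^ E * (m :: ls).prod : ℕ) : ℚ) =
        ((r * m : ℕ) : ℚ) - ((b * 2 ^ (E - e) * ls.prod : ℕ) : ℚ) := by
      rw [List.prod_cons, Nat.cast_mul r m, ← h3, hE, hy]
      push_cast
      field_simp
    rw [key, Nat.cast_sub]
    have hnn : (0 : ℚ) ≤ (x - y) * ((b * 2 ^ E * (m :: ls).prod : ℕ) : ℚ) :=
      mul_nonneg (by linarith) (Nat.cast_nonneg _)
    rw [key, sub_nonneg] at hnn
    exact_mod_cast hnn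
  · have : (a : ℚ) / b - (x - y) = ((a : ℚ) / b - x) + y := by ring
    rw [this]
    exact h4.add (rep_unit (Nat.mul_pos (pow_pos (by norm_num) e) hm))

theorem phase_one (a b E L : ℕ) (hab : a < b) : ∀ j : ℕ, ∃ x, State a b E L j x ∧
    (x < (1 : ℚ) / (2 : ℚ) ^ L ∨ x < (1 : ℚ) / (2 : ℚ) ^ (2 ^ j / 2)) := by
  have hb : 0 < b := by omega
  intro j
  induction j with
  | zero =>
    refine ⟨(a : ℚ) / b, ⟨by positivity, [], a * 2 ^ E, by simp, by simp, ?_, ?_⟩, Or.inr ?_⟩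
    · simp only [List.prod_nil, mul_one]
      push_cast
      field_simp
    · simpa using rep_zero 0
    · rw [pow_zero, show (1 : ℕ) / 2 = 0 from rfl, pow_zero, div_one, div_lt_one (by positivity)]
      exact_mod_cast hab
  | succ j ih =>
    obtain ⟨x, hx, hlt⟩ := ih
    by_cases hsmall : x < (1 : ℚ) / (2 : ℚ) ^ L
    · exact ⟨x, hx.mono (Nat.le_succ j), Or.inl hsmall⟩
    have hlt' := hlt.resolve_left hsmall
    push Not at hsmall
    have hx0 : 0 < x := lt_of_lt_of_le (by positivity) hsmall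
    set n := ⌈(1 : ℚ) / x⌉₊ with hn
    set u := 2 ^ j / 2 with hu
    have hn1 : (1 : ℚ) / x ≤ n := Nat.le_ceil _
    have hn2 : (n : ℚ) < 1 / x + 1 := Nat.ceil_lt_add_one (by positivity)
    have hnu : (2 : ℚ) ^ u + 1 ≤ n := by
      have h1 : (2 : ℚ) ^ u < 1 / x := by
        rw [lt_div_iff₀ hx0, mul_comm, ← lt_div_iff₀ (by positivity)]
        exact hlt'
      have h2 : ((2 ^ u : ℕ) : ℚ) < (n : ℚ) := by push_cast; linarith
      exact_mod_cast Nat.succ_le_of_lt (by exact_mod_cast h2 : 2 ^ u < n)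
    have hn0 : (2 : ℚ) ≤ n := by
      have : (1 : ℚ) ≤ (2 : ℚ) ^ u := one_le_pow₀ (by norm_num)
      linarith
    have hnpos : 0 < n := by exact_mod_cast (by linarith : (0 : ℚ) < n)
    have hnL : n ≤ 2 ^ L := by
      refine Nat.ceil_le.2 ?_
      push_cast
      rw [div_le_iff₀ hx0, mul_comm, ← div_le_iff₀ (by positivity)]
      exact hsmall
    have hle : (1 : ℚ) / ((2 ^ 0 * n : ℕ) : ℚ) ≤ x := by
      rw [pow_zero, one_mul, div_le_iff₀ (by positivity), mul_comm, ← div_le_iff₀ hx0]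
      exact hn1
    refine ⟨_, hx.step 0 n (Nat.zero_le _) hnpos hnL hle, Or.inr ?_⟩
    have hxn : x < 1 / ((n : ℚ) - 1) := by
      rw [lt_div_iff₀ (by linarith), mul_comm, ← lt_div_iff₀ hx0]
      linarith
    have hex : 2 ^ (j + 1) / 2 = 2 ^ j := by
      rw [pow_succ, Nat.mul_div_cancel _ (by norm_num)]
    rw [hex, pow_zero, one_mul]
    calc x - 1 / (n : ℚ) < 1 / ((n : ℚ) - 1) - 1 / (n : ℚ) := by linarith
      _ = 1 / (((n : ℚ) - 1) * n) := by
          have : ((n : ℚ) - 1) ≠ 0 := by linarith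
          field_simp
          ring
      _ ≤ _ := by
          refine one_div_le_one_div_of_le (by positivity) ?_
          have h1 : (1 : ℚ) ≤ (2 : ℚ) ^ u := one_le_pow₀ (by norm_num)
          rcases Nat.eq_zero_or_pos j with h | h
          · subst h
            rw [pow_zero, pow_one]
            nlinarith
          · have hev : 2 ^ j = u + u := by
              rw [hu, ← Nat.succ_pred_eq_of_pos h, Nat.succ_eq_add_one, pow_succ,
                Nat.mul_div_cancel _ (by norm_num : 0 < 2)]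
              ring
            rw [hev, pow_add]
            exact mul_le_mul (by linarith) (by linarith) (by positivity) (by linarith)

theorem phase_two (a b E L M J : ℕ) (hL : 3 ≤ L) (hME : M ≤ 2 ^ E) (hM : 0 < M)
    (h0 : ∃ x, State a b E L J x ∧ x < (1 : ℚ) / (2 : ℚ) ^ (L - 1)) :
    ∀ j : ℕ, ∃ x, State a b E L (J + j) x ∧ x < (1 : ℚ) / (2 : ℚ) ^ (L - 1) ∧
      (x < (1 : ℚ) / M ∨ x < (1 : ℚ) / (2 : ℚ) ^ ((L - 2) * j)) := by
  intro j
  induction j with
  | zero =>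
    obtain ⟨x, hx, hlt⟩ := h0
    refine ⟨x, hx, hlt, Or.inr (lt_of_lt_of_le hlt ?_)⟩
    refine one_div_le_one_div_of_le (by positivity) ?_
    rw [mul_zero, pow_zero]
    exact one_le_pow₀ (by norm_num)
  | succ j ih =>
    obtain ⟨x, hx, hltL, hlt⟩ := ih
    by_cases hsmall : x < (1 : ℚ) / M
    · exact ⟨x, hx.mono (by omega), hltL, Or.inl hsmall⟩
    have hlt' := hlt.resolve_left hsmall
    push Not at hsmall
    have hMq : (0 : ℚ) < M := by exact_mod_cast hM
    have hx0 : 0 < x := lt_of_lt_of_le (by positivity) hsmall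
    set y : ℚ := 1 / x with hy
    have hy1 : ((2 ^ (L - 1) : ℕ) : ℚ) ≤ y := by
      push_cast
      rw [hy, le_div_iff₀ hx0, mul_comm, ← le_div_iff₀ (by positivity)]
      exact hltL.le
    have hyM : y ≤ (M : ℚ) := by
      rw [hy, div_le_iff₀ hx0, mul_comm, ← div_le_iff₀ hMq]
      exact hsmall
    set fl := ⌊y⌋₊ with hfl
    have hfl1 : 2 ^ (L - 1) ≤ fl := Nat.le_floor hy1
    set l := Nat.log 2 fl with hl
    have hlL : L - 1 ≤ l := by
      have := Nat.log_mono_right (b := 2) hfl1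
      rwa [Nat.log_pow (by norm_num)] at this
    set e := l - (L - 1) with he
    have hfl0 : fl ≠ 0 := by have := Nat.one_le_two_pow (n := L - 1); omega
    have hlo : ((2 : ℚ) ^ e) * 2 ^ (L - 1) ≤ y := by
      rw [← pow_add, he, Nat.sub_add_cancel hlL]
      refine le_trans ?_ (Nat.floor_le (by positivity))
      exact_mod_cast Nat.pow_log_le_self 2 hfl0
    have hhi : y < ((2 : ℚ) ^ e) * 2 ^ L := by
      refine lt_of_lt_of_le (Nat.lt_floor_add_one y) ?_
      rw [← pow_add, show e + L = l + 1 by omega]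
      exact_mod_cast Nat.lt_pow_succ_log_self (b := 2) (by norm_num) fl
    have heE : e ≤ E := by
      have h2 : 2 ^ l ≤ M := le_trans (Nat.pow_log_le_self 2 hfl0) (Nat.floor_le_of_le hyM)
      have h3 := (Nat.pow_le_pow_iff_right (by norm_num : 1 < 2)).1 (le_trans h2 hME)
      omega
    set m := ⌈y / (2 : ℚ) ^ e⌉₊ with hm
    have hm1 : y / (2 : ℚ) ^ e ≤ m := Nat.le_ceil _
    have hm2 : (m : ℚ) < y / (2 : ℚ) ^ e + 1 := Nat.ceil_lt_add_one (by positivity)
    have hmlo : (2 : ℚ) ^ (L - 1) ≤ m := by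
      refine le_trans ?_ hm1
      rw [le_div_iff₀ (by positivity), mul_comm]
      exact hlo
    have hmhi : m ≤ 2 ^ L := by
      refine Nat.ceil_le.2 ?_
      push_cast
      rw [div_le_iff₀ (by positivity), mul_comm]
      exact hhi.le
    have h4 : (4 : ℚ) ≤ (2 : ℚ) ^ (L - 1) := by
      calc (4 : ℚ) = 2 ^ 2 := by norm_num
        _ ≤ _ := pow_le_pow_right₀ (by norm_num) (by omega)
    have hmpos : 0 < m := by exact_mod_cast (by linarith : (0 : ℚ) < m)
    have hle : (1 : ℚ) / ((2 ^ e * m : ℕ) : ℚ) ≤ x := by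
      push_cast
      rw [div_le_iff₀ (by positivity)]
      rw [div_le_iff₀ (by positivity), hy, div_le_iff₀ hx0] at hm1
      nlinarith
    have hstep := hx.step e m heE hmpos hmhi hle
    have hpos : (0 : ℚ) < 1 / ((2 ^ e * m : ℕ) : ℚ) := by positivity
    refine ⟨_, hstep.mono (by omega), by linarith, Or.inr ?_⟩
    have hxm : x - 1 / ((2 ^ e * m : ℕ) : ℚ) < x / ((m : ℚ) - 1) := by
      have hm1' : (0 : ℚ) < (m : ℚ) - 1 := by linarith
      have hlt2 : x * ((2 : ℚ) ^ e * ((m : ℚ) - 1)) < 1 := by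
        have h5 : (m : ℚ) - 1 < y / (2 : ℚ) ^ e := by linarith
        rw [lt_div_iff₀ (by positivity), hy, lt_div_iff₀ hx0] at h5
        linarith
      have h6 : x < 1 / ((2 : ℚ) ^ e * ((m : ℚ) - 1)) := by
        rw [lt_div_iff₀ (by positivity)]; exact hlt2
      have h7 : 1 / ((2 : ℚ) ^ e * ((m : ℚ) - 1)) =
          1 / ((2 : ℚ) ^ e * m) + (1 / ((2 : ℚ) ^ e * m)) / ((m : ℚ) - 1) := by
        field_simp
        ring
      have h8 : (1 / ((2 : ℚ) ^ e * m)) / ((m : ℚ) - 1) ≤ x / ((m : ℚ) - 1) := by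
        refine div_le_div_of_nonneg_right ?_ hm1'.le
        push_cast at hle
        exact hle
      push_cast
      linarith
    refine lt_of_lt_of_le hxm ?_
    have h9 : (2 : ℚ) ^ (L - 2) ≤ (m : ℚ) - 1 := by
      have e1 : (2 : ℚ) ^ (L - 1) = 2 * (2 : ℚ) ^ (L - 2) := by
        rw [← pow_succ']; congr 1; omega
      have : (1 : ℚ) ≤ (2 : ℚ) ^ (L - 2) := one_le_pow₀ (by norm_num)
      linarith
    calc x / ((m : ℚ) - 1) ≤ ((1 : ℚ) / (2 : ℚ) ^ ((L - 2) * j)) / (2 : ℚ) ^ (L - 2) :=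
          div_le_div₀ (by positivity) hlt'.le (by positivity) h9
      _ = _ := by rw [div_div, ← pow_add]; congr 2

/-- The expansion, given the pieces. -/
theorem rep_of_pieces (a b E0 L M j1 j2 : ℕ) (hL : 3 ≤ L) (hab : a < b) (hbL : b ≤ 2 ^ L)
    (hM : 0 < M) (hME : M ≤ 2 ^ (L * E0)) (hj1 : 2 * L ≤ 2 ^ j1) (hj2 : L * E0 ≤ (L - 2) * j2)
    (piece : ∀ v C : ℕ, v ≤ 2 ^ L → 0 < C → Rep 4 ((v : ℚ) / ((M * C : ℕ) : ℚ))) :
    Rep (5 * (j1 + j2) + 4 * (E0 + 1)) ((a : ℚ) / b) := by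
  set E := L * E0 with hE
  obtain ⟨x1, hx1, hlt1⟩ := phase_one a b E L hab j1
  have hx1' : x1 < (1 : ℚ) / (2 : ℚ) ^ (L - 1) := by
    rcases hlt1 with h | h
    · exact lt_of_lt_of_le h (one_div_le_one_div_of_le (by positivity)
        (pow_le_pow_right₀ (by norm_num) (by omega)))
    · exact lt_of_lt_of_le h (one_div_le_one_div_of_le (by positivity)
        (pow_le_pow_right₀ (by norm_num) (by omega)))
  obtain ⟨x, hx, -, hlt⟩ := phase_two a b E L M j1 hL hME hM ⟨x1, hx1, hx1'⟩ j2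
  have hxM : x < (1 : ℚ) / M := by
    rcases hlt with h | h
    · exact h
    · refine lt_of_lt_of_le h (one_div_le_one_div_of_le (by exact_mod_cast hM) ?_)
      calc (M : ℚ) ≤ (2 : ℚ) ^ E := by exact_mod_cast hME
        _ ≤ _ := pow_le_pow_right₀ (by norm_num) hj2
  obtain ⟨hx0, ls, r, hlen, hls, hr, hrep⟩ := hx
  set all := b :: (List.replicate E0 (2 ^ L) ++ ls) with hall
  have hprod : all.prod = b * 2 ^ E * ls.prod := by
    rw [hall, List.prod_cons, List.prod_append, List.prod_replicate, ← pow_mul, mul_assoc]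
  have hmem : ∀ q ∈ all, 0 < q ∧ q ≤ 2 ^ L := by
    intro q hq
    rcases List.mem_cons.1 hq with rfl | hq
    · exact ⟨by omega, hbL⟩
    rcases List.mem_append.1 hq with hq | hq
    · obtain rfl := List.eq_of_mem_replicate hq
      exact ⟨pow_pos (by norm_num) _, le_rfl⟩
    · exact hls q hq
  have hpos : 0 < all.prod := List.prod_pos fun q hq => (hmem q hq).1
  have hrlt : r * M < all.prod := by
    have h1 : (r : ℚ) * M < ((all.prod : ℕ) : ℚ) := by
      rw [← hr, ← hprod]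
      have hp : (0 : ℚ) < ((all.prod : ℕ) : ℚ) := by exact_mod_cast hpos
      rw [lt_div_iff₀ (by exact_mod_cast hM)] at hxM
      nlinarith
    exact_mod_cast h1
  have hR := rep_mixed M (2 ^ L) hM piece all hmem (r * M) hrlt
  have hxval : x = ((r * M : ℕ) : ℚ) / ((M * all.prod : ℕ) : ℚ) := by
    have hp : (0 : ℚ) < ((all.prod : ℕ) : ℚ) := by exact_mod_cast hpos
    rw [← hprod] at hr
    rw [Nat.cast_mul r M, Nat.cast_mul M all.prod, ← hr, eq_div_iff (by positivity)]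
    ring
  rw [← hxval] at hR
  have h := hrep.add hR
  rw [sub_add_cancel] at h
  refine h.mono ?_
  simp only [hall, List.length_cons, List.length_append, List.length_replicate]
  omega

end Vale.Agent.P012
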