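import Mathlib

/-!
Erdős's lower bound: the gap below a fraction left by few unit fractions.
-/

namespace Vale.Agent.P012

theorem gap (K : ℕ) (hK : 1 ≤ K) : ∀ (k p q : ℕ) (s : Multiset ℕ), k ≤ K → s.card ≤ k →
    (∀ d ∈ s, 0 < d) → 0 < q → (s.map fun d : ℕ => (1 : ℚ) / d).sum < (p : ℚ) / q →
    (1 : ℚ) / (2 * (K : ℚ) * q) ^ (2 ^ k) ≤
      (p : ℚ) / q - (s.map fun d : ℕ => (1 : ℚ) / d).sum := by
  intro k
  induction k with
  | zero =>
    intro p q s _ hs _ hq hlt
    obtain rfl : s = 0 := Multiset.card_eq_zero.1 (Nat.le_zero.1 hs)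
    simp only [Multiset.map_zero, Multiset.sum_zero, sub_zero] at hlt ⊢
    have hqq : (0 : ℚ) < q := by exact_mod_cast hq
    have hp : (1 : ℚ) ≤ p := by
      have : (0 : ℚ) < p := by
        rcases Nat.eq_zero_or_pos p with h | h
        · subst h; simp at hlt
        · exact_mod_cast h
      have : 0 < p := by exact_mod_cast this
      exact_mod_cast this
    have hKq : (1 : ℚ) ≤ K := by exact_mod_cast hK
    rw [pow_zero, pow_one, div_le_div_iff₀ (by positivity) hqq]
    nlinarith [mul_le_mul hp hKq (by norm_num) (by linarith)]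
  | succ k ih =>
    intro p q s hk hs hpos hq hlt
    have hqq : (1 : ℚ) ≤ q := by exact_mod_cast hq
    have hKq : (1 : ℚ) ≤ K := by exact_mod_cast hK
    set σ := (s.map fun d : ℕ => (1 : ℚ) / d).sum with hσ
    have hp : (1 : ℚ) ≤ p := by
      have h0 : 0 ≤ σ := Multiset.sum_nonneg fun a ha => by
        obtain ⟨e, _, rfl⟩ := Multiset.mem_map.1 ha
        positivity
      have : p ≠ 0 := by
        rintro rfl
        rw [Nat.cast_zero, zero_div] at hlt
        linarith
      exact_mod_cast Nat.one_le_iff_ne_zero.2 this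
    by_cases hhalf : σ ≤ (p : ℚ) / q / 2
    · refine le_trans ?_ (by linarith : (p : ℚ) / q / 2 ≤ (p : ℚ) / q - σ)
      have h2 : (1 : ℚ) ≤ 2 * K * q := by nlinarith
      calc (1 : ℚ) / (2 * K * q) ^ 2 ^ (k + 1) ≤ 1 / (2 * K * q) ^ 1 :=
            one_div_le_one_div_of_le (by positivity) (pow_le_pow_right₀ h2 Nat.one_le_two_pow)
        _ ≤ (p : ℚ) / q / 2 := by
            rw [pow_one, div_div, div_le_div_iff₀ (by positivity) (by positivity)]
            nlinarith [mul_le_mul hp hKq (by norm_num) (by linarith)]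
    push Not at hhalf
    obtain ⟨d, hd, hdlt⟩ : ∃ d ∈ s, d ≤ 2 * K * q := by
      by_contra hno
      push Not at hno
      have h1 : σ ≤ (s.card : ℚ) * (1 / (2 * K * q)) := by
        rw [hσ, ← nsmul_eq_mul, ← Multiset.card_map (fun d : ℕ => (1 : ℚ) / d) s]
        refine Multiset.sum_le_card_nsmul _ _ fun a ha => ?_
        obtain ⟨e, he, rfl⟩ := Multiset.mem_map.1 ha
        refine one_div_le_one_div_of_le (by positivity) ?_
        exact_mod_cast (hno e he).le
      have h2 : (s.card : ℚ) ≤ K := by exact_mod_cast le_trans hs hk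
      have h3 : σ ≤ (p : ℚ) / q / 2 := by
        refine le_trans h1 ?_
        calc (s.card : ℚ) * (1 / (2 * K * q)) ≤ (K : ℚ) * (1 / (2 * K * q)) :=
              mul_le_mul_of_nonneg_right h2 (by positivity)
          _ = 1 / q / 2 := by field_simp
          _ ≤ _ := by gcongr
      linarith
    have hd0 : 0 < d := hpos d hd
    obtain ⟨t, rfl⟩ := Multiset.exists_cons_of_mem hd
    rw [Multiset.card_cons] at hs
    set τ := (t.map fun e : ℕ => (1 : ℚ) / e).sum with hτ
    have hστ : σ = 1 / (d : ℚ) + τ := by rw [hσ, Multiset.map_cons, Multiset.sum_cons]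
    have hτ0 : 0 ≤ τ := Multiset.sum_nonneg fun a ha => by
      obtain ⟨e, _, rfl⟩ := Multiset.mem_map.1 ha
      positivity
    have hdq : (0 : ℚ) < d := by exact_mod_cast hd0
    have hxd : (p : ℚ) / q - 1 / (d : ℚ) = ((p * d - q : ℕ) : ℚ) / ((q * d : ℕ) : ℚ) := by
      have h : q ≤ p * d := by
        have h1 : (1 : ℚ) / d ≤ (p : ℚ) / q := by linarith
        rw [div_le_div_iff₀ hdq (by positivity), one_mul] at h1
        exact_mod_cast h1
      rw [Nat.cast_sub h]
      push_cast
      field_simp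
    have h := ih (p * d - q) (q * d) t (by omega) (by omega)
      (fun e he => hpos e (Multiset.mem_cons_of_mem he)) (Nat.mul_pos hq hd0)
      (by rw [← hxd, ← hτ]; linarith)
    rw [← hτ, ← hxd] at h
    refine le_trans ?_ (le_trans h (by linarith))
    refine one_div_le_one_div_of_le (by positivity) ?_
    rw [pow_succ', pow_mul]
    refine pow_le_pow_left₀ (by positivity) ?_ _
    have hd' : (d : ℚ) ≤ 2 * K * q := by exact_mod_cast hdlt
    push_cast
    calc 2 * (K : ℚ) * (q * d) = 2 * K * q * d := by ring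
      _ ≤ 2 * K * q * (2 * K * q) := mul_le_mul_of_nonneg_left hd' (by positivity)
      _ = _ := by ring

/-- `(b - 1) / b` needs at least `log log b / 4` distinct unit fractions. -/
theorem lower_bound (b : ℕ) (hb : 16 ≤ b) (S : Finset ℕ) (hS : ∀ n ∈ S, 2 ≤ n)
    (hsum : ((b - 1 : ℕ) : ℚ) / b = ∑ n ∈ S, (1 : ℚ) / n) :
    1 / 4 * Real.log (Real.log b) ≤ (S.card : ℝ) := by
  set k := S.card
  have hb1 : (1 : ℚ) < b := by exact_mod_cast (by omega : 1 < b)
  have hbQ : ((b - 1 : ℕ) : ℚ) = (b : ℚ) - 1 := by rw [Nat.cast_sub (by omega)]; simp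
  have hlt : (S.1.map fun d : ℕ => (1 : ℚ) / d).sum < ((1 : ℕ) : ℚ) / ((1 : ℕ) : ℚ) := by
    show ∑ n ∈ S, (1 : ℚ) / n < _
    rw [← hsum, hbQ, Nat.cast_one, div_one, div_lt_one (by positivity)]
    linarith
  have h := gap (k + 1) (by omega) k 1 1 S.1 (by omega) le_rfl
    (fun d hd => by have := hS d hd; omega) (by norm_num) hlt
  change _ ≤ _ - ∑ n ∈ S, (1 : ℚ) / n at h
  rw [← hsum, hbQ] at h
  have hgap : (1 : ℚ) / 1 - ((b : ℚ) - 1) / b = 1 / b := by field_simp; ring
  simp only [Nat.cast_one, hgap] at h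
  rw [one_div_le_one_div (by positivity) (by positivity)] at h
  have hN : b ≤ (2 * (k + 1)) ^ 2 ^ k := by
    rw [mul_one] at h
    exact_mod_cast h
  have hk1 : 1 ≤ k := by
    by_contra hk
    have h0 : k = 0 := by omega
    rw [h0] at hN
    simp at hN
    omega
  have hlog : Real.log b ≤ (4 : ℝ) ^ (k + 1) := by
    have h1 : Real.log b ≤ Real.log (((2 * (k + 1)) ^ 2 ^ k : ℕ) : ℝ) :=
      Real.log_le_log (by positivity) (by exact_mod_cast hN)
    push_cast at h1
    rw [Real.log_pow] at h1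
    push_cast at h1
    have h2 : Real.log (2 * ((k : ℝ) + 1)) ≤ 2 * ((k : ℝ) + 1) :=
      Real.log_le_self (by positivity)
    have h3 : 2 * ((k : ℝ) + 1) ≤ 2 * (2 : ℝ) ^ (k + 1) := by
      have : ((k + 1 : ℕ) : ℝ) ≤ ((2 ^ (k + 1) : ℕ) : ℝ) := by
        exact_mod_cast (Nat.lt_two_pow_self (n := k + 1)).le
      push_cast at this
      linarith
    calc Real.log b ≤ (2 : ℝ) ^ k * Real.log (2 * ((k : ℝ) + 1)) := h1
      _ ≤ (2 : ℝ) ^ k * (2 * (2 : ℝ) ^ (k + 1)) :=
          mul_le_mul_of_nonneg_left (le_trans h2 h3) (by positivity)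
      _ = _ := by
          rw [show (4 : ℝ) = 2 * 2 by norm_num, mul_pow]; ring
  have hlb : 1 < Real.log b := by
    have h16 : Real.log 16 ≤ Real.log b :=
      Real.log_le_log (by norm_num) (by exact_mod_cast hb)
    have e : Real.log 16 = 4 * Real.log 2 := by
      rw [show (16 : ℝ) = 2 ^ 4 by norm_num, Real.log_pow]; norm_num
    have := Real.log_two_gt_d9
    linarith
  have h5 : Real.log (Real.log b) ≤ Real.log ((4 : ℝ) ^ (k + 1)) :=
    Real.log_le_log (by linarith) hlog
  rw [Real.log_pow] at h5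
  push_cast at h5
  have h6 : Real.log 4 ≤ 2 := by
    have e : Real.log 4 = 2 * Real.log 2 := by
      rw [show (4 : ℝ) = 2 ^ 2 by norm_num, Real.log_pow]; norm_num
    have := Real.log_two_lt_d9
    linarith
  have hk2 : (1 : ℝ) ≤ k := by exact_mod_cast hk1
  nlinarith

end Vale.Agent.P012
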