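import Vale.Agent.P012.Pool

/-!
Every small numerator over the nice denominator is a sum of four unit fractions.
-/

namespace Vale.Agent.P012

open Finset

/-- `A` avoids high powers of small primes and multiples of bad conductors. -/
def Good (L A : ℕ) : Prop :=
  (∀ p, p.Prime → p ≤ FF L → ¬ p ^ (EE L + 1) ∣ A) ∧ ∀ f ∈ BC L, ¬ f ∣ A

/-- The fixed smooth factor of the denominators. -/
def HH (L : ℕ) : ℕ := primorial (FF L) ^ EE L

theorem card_not_good_le (L : ℕ) (hL : 1 ≤ L) (n : ℕ) [DecidablePred (Good L)] :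
    (((Finset.Icc 1 n).filter fun A => ¬ Good L A).card : ℝ) ≤ n / 4 := by
  classical
  have hmult : ∀ d : ℕ, 0 < d →
      (((Finset.Icc 1 n).filter fun A => d ∣ A).card : ℝ) ≤ (n : ℝ) * (1 / d) := by
    intro d hd
    have h1 : ((Finset.Icc 1 n).filter fun A => d ∣ A).card = n / d := by
      rw [← Nat.Ioc_filter_dvd_card_eq_div n d]
      congr 1
    rw [h1, mul_one_div]
    exact Nat.cast_div_le
  set U1 := (Nat.primesLE (FF L)).biUnion
    fun p => (Finset.Icc 1 n).filter fun A => p ^ (EE L + 1) ∣ A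
  set U2 := (BC L).biUnion fun f => (Finset.Icc 1 n).filter fun A => f ∣ A
  have hsub : ((Finset.Icc 1 n).filter fun A => ¬ Good L A) ⊆ U1 ∪ U2 := by
    intro A hA
    obtain ⟨hA1, hA2⟩ := Finset.mem_filter.1 hA
    rw [Good, not_and_or] at hA2
    rcases hA2 with h | h
    · push Not at h
      obtain ⟨p, hp, hpF, hpd⟩ := h
      exact Finset.mem_union_left _ (Finset.mem_biUnion.2
        ⟨p, Nat.mem_primesLE.2 ⟨hpF, hp⟩, Finset.mem_filter.2 ⟨hA1, hpd⟩⟩)
    · push Not at h
      obtain ⟨f, hf, hfd⟩ := h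
      exact Finset.mem_union_right _ (Finset.mem_biUnion.2
        ⟨f, hf, Finset.mem_filter.2 ⟨hA1, hfd⟩⟩)
  have hU1 : (U1.card : ℝ) ≤ (n : ℝ) * (1 / 8) := by
    calc (U1.card : ℝ) ≤ ∑ p ∈ Nat.primesLE (FF L),
          (((Finset.Icc 1 n).filter fun A => p ^ (EE L + 1) ∣ A).card : ℝ) := by
          exact_mod_cast Finset.card_biUnion_le
      _ ≤ ∑ _p ∈ Nat.primesLE (FF L), (n : ℝ) * (1 / (2 : ℝ) ^ (EE L + 1)) := by
          refine Finset.sum_le_sum fun p hp => ?_
          have hp2 : 2 ≤ p := (Nat.mem_primesLE.1 hp).2.two_le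
          refine le_trans (hmult _ (by positivity)) (mul_le_mul_of_nonneg_left ?_ (by positivity))
          push_cast
          refine one_div_le_one_div_of_le (by positivity) (pow_le_pow_left₀ (by norm_num) ?_ _)
          exact_mod_cast hp2
      _ ≤ (n : ℝ) * (1 / 8) := by
          rw [Finset.sum_const, nsmul_eq_mul]
          have h1 : (Nat.primesLE (FF L)).card ≤ 2 * FF L := by
            rw [Nat.primesLE_card_eq_primeCounting]
            have h2 : Nat.primeCounting (FF L) ≤ FF L + 1 := by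
              rw [← Nat.primesLE_card_eq_primeCounting, Nat.primesLE]
              exact le_trans (Finset.card_filter_le _ _) (le_of_eq (Finset.card_range _))
            have h3 : 1 ≤ FF L := by rw [FF]; exact Nat.one_le_two_pow
            omega
          have h4 : (2 : ℝ) ^ (EE L + 1) = 16 * (FF L : ℝ) := by
            rw [EE, FF, pow_add, pow_add]; push_cast; ring
          have h3 : (0 : ℝ) < FF L := by rw [FF]; push_cast; positivity
          rw [h4]
          calc _ ≤ ((2 * FF L : ℕ) : ℝ) * ((n : ℝ) * (1 / (16 * (FF L : ℝ)))) :=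
                mul_le_mul_of_nonneg_right (by exact_mod_cast h1) (by positivity)
            _ = _ := by push_cast; field_simp; ring
  have hU2 : (U2.card : ℝ) ≤ (n : ℝ) * (1 / 8) := by
    calc (U2.card : ℝ) ≤ ∑ f ∈ BC L,
          (((Finset.Icc 1 n).filter fun A => f ∣ A).card : ℝ) := by
          exact_mod_cast Finset.card_biUnion_le
      _ ≤ ∑ f ∈ BC L, (n : ℝ) * (1 / f) := by
          refine Finset.sum_le_sum fun f hf => hmult f ?_
          have := (Finset.mem_Ioc.1 (Finset.mem_filter.1 hf).1).1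
          omega
      _ ≤ _ := by
          rw [← Finset.mul_sum]
          exact mul_le_mul_of_nonneg_left (sum_BC_le L hL) (by positivity)
  have : (((Finset.Icc 1 n).filter fun A => ¬ Good L A).card : ℝ) ≤ (U1.card : ℝ) + U2.card := by
    exact_mod_cast le_trans (Finset.card_le_card hsub) (Finset.card_union_le _ _)
  linarith

/-- Every integer from `2` on is a sum of two good integers. -/
theorem exists_good_split (L : ℕ) (hL : 1 ≤ L) (v : ℕ) (hv : 2 ≤ v) :
    ∃ x y, 0 < x ∧ 0 < y ∧ x + y = v ∧ Good L x ∧ Good L y := by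
  classical
  by_contra hno
  push Not at hno
  set n := v - 1
  set Bad := (Finset.Icc 1 n).filter fun A => ¬ Good L A
  have hsub : Finset.Icc 1 n ⊆ Bad ∪ Bad.image fun x => v - x := by
    intro x hx
    obtain ⟨hx1, hx2⟩ := Finset.mem_Icc.1 hx
    by_cases h : Good L x
    · refine Finset.mem_union_right _ (Finset.mem_image.2 ⟨v - x, ?_, by omega⟩)
      exact Finset.mem_filter.2 ⟨Finset.mem_Icc.2 ⟨by omega, by omega⟩,
        hno x (v - x) (by omega) (by omega) (by omega) h⟩
    · exact Finset.mem_union_left _ (Finset.mem_filter.2 ⟨hx, h⟩)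
  have h1 : n ≤ Bad.card + Bad.card := by
    have h := le_trans (Finset.card_le_card hsub) (Finset.card_union_le _ _)
    rw [Nat.card_Icc] at h
    have := Finset.card_image_le (s := Bad) (f := fun x => v - x)
    omega
  have h2 := card_not_good_le L hL n
  have h3 : (n : ℝ) ≤ (Bad.card : ℝ) + Bad.card := by exact_mod_cast h1
  have h4 : (1 : ℝ) ≤ n := by exact_mod_cast (by omega : 1 ≤ n)
  linarith

theorem big_primes (L A : ℕ) (hgood : Good L A) {p : ℕ} (hp : p.Prime)
    (hpd : p ∣ A / Nat.gcd A (HH L)) : FF L < p := by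
  by_contra h
  have hgA : Nat.gcd A (HH L) ∣ A := Nat.gcd_dvd_left _ _
  have hmul : p * Nat.gcd A (HH L) ∣ A := by
    obtain ⟨c, hc⟩ := hpd
    refine ⟨c, ?_⟩
    calc A = A / Nat.gcd A (HH L) * Nat.gcd A (HH L) := (Nat.div_mul_cancel hgA).symm
      _ = _ := by rw [hc]; ring
  have key : ∀ j, j ≤ EE L → p ^ j ∣ Nat.gcd A (HH L) := by
    intro j hj
    induction j with
    | zero => simp
    | succ j ih =>
      refine Nat.dvd_gcd ?_ ?_
      · rw [pow_succ']
        exact dvd_trans (Nat.mul_dvd_mul_left p (ih (by omega))) hmul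
      · rw [HH]
        exact dvd_trans (pow_dvd_pow p hj)
          (pow_dvd_pow_of_dvd (hp.dvd_primorial_iff.2 (by omega)) _)
  refine hgood.1 p hp (by omega) ?_
  rw [pow_succ']
  exact dvd_trans (Nat.mul_dvd_mul_left p (key (EE L) le_rfl)) hmul

theorem piece_identity {P C A d m : ℕ} (hP : 0 < P) (hC : 0 < C) (hm : 0 < m) (hd : d ∣ P)
    (h : A * m = C * d + 1) :
    (A : ℚ) / ((P * C : ℕ) : ℚ) =
      (1 : ℚ) / ((P / d * m : ℕ) : ℚ) + 1 / ((P * C * m : ℕ) : ℚ) := by
  obtain ⟨e, rfl⟩ := hd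
  rcases Nat.eq_zero_or_pos d with rfl | hd0
  · simp at hP
  have he : 0 < e := Nat.pos_of_mul_pos_left hP
  rw [Nat.mul_div_cancel_left e hd0]
  have h' : (A : ℚ) * m = C * d + 1 := by exact_mod_cast h
  push_cast
  field_simp
  linear_combination h'

/-- A good numerator over the nice denominator is a sum of two unit fractions. -/
theorem rep_good (L P : ℕ) (hP : 0 < P)
    (hpool : ∀ A C : ℕ, 2 ≤ A → A ≤ 2 ^ L → Nat.Coprime C A →
      (∀ p, p.Prime → p ∣ A → FF L < p) → (∀ f ∈ BC L, ¬ f ∣ A) →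
      ∃ d, d ∣ P ∧ A ∣ C * d + 1)
    (v C : ℕ) (hv : 0 < v) (hvL : v ≤ 2 ^ L) (hC : 0 < C) (hgood : Good L v) :
    Rep 2 ((v : ℚ) / ((P * HH L * C : ℕ) : ℚ)) := by
  set g := Nat.gcd v (HH L) with hg
  have hH : 0 < HH L := by rw [HH]; exact pow_pos (primorial_pos _) _
  have hg0 : 0 < g := Nat.gcd_pos_of_pos_left _ hv
  set v' := v / g with hv'
  set C' := HH L / g * C with hC'
  set g2 := Nat.gcd v' C' with hg2
  have hv'0 : 0 < v' := Nat.div_pos (Nat.le_of_dvd hv (Nat.gcd_dvd_left _ _)) hg0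
  have hC'0 : 0 < C' :=
    Nat.mul_pos (Nat.div_pos (Nat.le_of_dvd hH (Nat.gcd_dvd_right _ _)) hg0) hC
  have hg20 : 0 < g2 := Nat.gcd_pos_of_pos_left _ hv'0
  set A := v' / g2 with hA
  set C'' := C' / g2 with hC''
  have hA0 : 0 < A := Nat.div_pos (Nat.le_of_dvd hv'0 (Nat.gcd_dvd_left _ _)) hg20
  have hC''0 : 0 < C'' := Nat.div_pos (Nat.le_of_dvd hC'0 (Nat.gcd_dvd_right _ _)) hg20
  have hcop : Nat.Coprime C'' A := (Nat.coprime_div_gcd_div_gcd hg20).symm
  have hAv : A ∣ v' := Nat.div_dvd_of_dvd (Nat.gcd_dvd_left _ _)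
  have hval : (v : ℚ) / ((P * HH L * C : ℕ) : ℚ) = (A : ℚ) / ((P * C'' : ℕ) : ℚ) := by
    have e1 : v = A * g2 * g := by
      rw [hA, Nat.div_mul_cancel (Nat.gcd_dvd_left _ _), hv',
        Nat.div_mul_cancel (Nat.gcd_dvd_left _ _)]
    have e2 : P * HH L * C = P * C'' * g2 * g := by
      rw [mul_assoc P C'' g2, hC'', Nat.div_mul_cancel (Nat.gcd_dvd_right _ _), hC']
      calc P * HH L * C = P * (HH L / g * g) * C := by
            rw [Nat.div_mul_cancel (Nat.gcd_dvd_right _ _)]
        _ = _ := by ring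
    rw [e1, e2]
    push_cast
    field_simp
  rw [hval]
  rcases (by omega : A = 1 ∨ 2 ≤ A) with h1 | h2
  · rw [h1, Nat.cast_one]
    exact (rep_unit (Nat.mul_pos hP hC''0)).mono (by norm_num)
  · have hAle : A ≤ 2 ^ L :=
      le_trans (le_trans (Nat.div_le_self _ _) (Nat.div_le_self _ _)) hvL
    obtain ⟨d, hd, m, hm⟩ := hpool A C'' h2 hAle hcop
      (fun p hp hpd => big_primes L v hgood hp (hpd.trans hAv))
      (fun f hf hfd => hgood.2 f hf (hfd.trans (hAv.trans (Nat.div_dvd_of_dvd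
        (Nat.gcd_dvd_left _ _)))))
    have hm0 : 0 < m := by
      rcases Nat.eq_zero_or_pos m with h | h
      · rw [h, mul_zero] at hm; omega
      · exact h
    rw [piece_identity hP hC''0 hm0 hd hm.symm]
    refine (rep_unit ?_).add (rep_unit ?_)
    · exact Nat.mul_pos (Nat.div_pos (Nat.le_of_dvd hP hd)
        (Nat.pos_of_dvd_of_pos hd hP)) hm0
    · exact Nat.mul_pos (Nat.mul_pos hP hC''0) hm0

/-- The exponent bound for the nice denominator. -/
def QQ (L : ℕ) : ℕ := ss L * kk L + 2 * FF L * EE L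

/-- One nice denominator serves all numerators up to `2 ^ L`. -/
theorem exists_nice (L : ℕ) (hL : 1 ≤ L) :
    ∃ M : ℕ, 0 < M ∧ M ≤ 2 ^ QQ L ∧ ∀ v C : ℕ, v ≤ 2 ^ L → 0 < C →
      Rep 4 ((v : ℚ) / ((M * C : ℕ) : ℚ)) := by
  obtain ⟨P, hP, hPle, hpool⟩ := exists_pool L hL
  refine ⟨P * HH L, Nat.mul_pos hP (by rw [HH]; exact pow_pos (primorial_pos _) _), ?_, ?_⟩
  · rw [QQ, pow_add]
    refine Nat.mul_le_mul hPle ?_
    rw [HH, pow_mul, pow_mul]
    exact Nat.pow_le_pow_left (primorial_le_four_pow _) _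
  intro v C hv hC
  rcases (by omega : v = 0 ∨ v = 1 ∨ 2 ≤ v) with h | h | h
  · subst h; simpa using rep_zero 4
  · subst h
    rw [Nat.cast_one]
    exact (rep_unit (Nat.mul_pos (Nat.mul_pos hP (by rw [HH]; exact pow_pos (primorial_pos _) _))
      hC)).mono (by norm_num)
  · obtain ⟨x, y, hx, hy, hxy, hgx, hgy⟩ := exists_good_split L hL v h
    subst hxy
    have := (rep_good L P hP hpool x C hx (by omega) hC hgx).add
      (rep_good L P hP hpool y C hy (by omega) hC hgy)
    rw [Nat.cast_add, add_div]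
    exact this

end Vale.Agent.P012
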