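import Vale.Agent.P012.Rep
import Vale.Agent.P012.Duality

/-!
A pool of primes whose subset products cover the unit classes of most small moduli.
-/

namespace Vale.Agent.P012

open Finset

/-- The weight of `p` for the character `χ` modulo `A`. -/
noncomputable def wt {A : ℕ} (χ : DirichletCharacter ℂ A) (p : ℕ) : ℝ :=
  if Nat.Coprime p A then ‖1 + χ (p : ZMod A)‖ / 2 else 1

theorem wt_nonneg {A : ℕ} (χ : DirichletCharacter ℂ A) (p : ℕ) : 0 ≤ wt χ p := by
  unfold wt; split <;> positivity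

open Classical in
/-- The nontrivial characters modulo `A`. -/
noncomputable def others (A : ℕ) : Finset (DirichletCharacter ℂ A) :=
  (univ : Finset (DirichletCharacter ℂ A)).filter fun χ => χ ≠ 1

theorem ne_one_of_mem_others {A : ℕ} {χ : DirichletCharacter ℂ A} (h : χ ∈ others A) : χ ≠ 1 := by
  simpa [others] using h

theorem add_sum_others {A : ℕ} (f : DirichletCharacter ℂ A → ℂ) :
    f 1 + ∑ χ ∈ others A, f χ = ∑ χ : DirichletCharacter ℂ A, f χ := by
  classical
  have h : others A = (univ : Finset (DirichletCharacter ℂ A)).erase 1 := by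
    ext χ; simp [others]
  rw [h]
  exact Finset.add_sum_erase _ _ (Finset.mem_univ _)

theorem card_others_le (A : ℕ) [NeZero A] : (others A).card ≤ A := by
  refine le_trans (Finset.card_le_univ _) ?_
  rw [← Nat.card_eq_fintype_card,
    DirichletCharacter.card_eq_totient_of_hasEnoughRootsOfUnity ℂ A]
  exact Nat.totient_le A

open Classical in
/-- If the weighted products are small, every unit class is a subset product. -/
theorem subset_product {A k : ℕ} [NeZero A] (m : Fin k → ℕ)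
    (hsmall : ∑ χ ∈ others A, ∏ j, wt χ (m j) < 1)
    (t : ZMod A) (ht : IsUnit t) :
    ∃ J : Finset (Fin k), ∏ j ∈ J, (m j : ZMod A) = t := by
  by_contra hno
  push Not at hno
  have hz : ∑ χ : DirichletCharacter ℂ A, χ t⁻¹ * ∏ j, (1 + χ (m j : ZMod A)) = 0 := by
    simp only [Finset.prod_one_add, Finset.mul_sum]
    rw [Finset.sum_comm]
    refine Finset.sum_eq_zero fun J _ => ?_
    simp only [← map_prod]
    rw [DirichletCharacter.sum_char_inv_mul_char_eq ℂ ht, if_neg]
    exact fun h => hno J h.symm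
  set μ : ℝ := ∏ j, (if Nat.Coprime (m j) A then 2 else 1 : ℝ) with hμ
  have hμpos : 0 < μ := Finset.prod_pos fun j _ => by split <;> norm_num
  have htu : IsUnit (t⁻¹) := by
    refine IsUnit.of_mul_eq_one t ?_
    exact ZMod.inv_mul_of_unit t ht
  rw [← add_sum_others] at hz
  have h1 : (1 : DirichletCharacter ℂ A) t⁻¹ *
      ∏ j, (1 + (1 : DirichletCharacter ℂ A) (m j : ZMod A)) = (μ : ℂ) := by
    rw [MulChar.one_apply htu, one_mul, hμ, Complex.ofReal_prod]
    refine Finset.prod_congr rfl fun j _ => ?_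
    by_cases h : Nat.Coprime (m j) A
    · rw [MulChar.one_apply ((ZMod.isUnit_iff_coprime _ _).2 h), if_pos h]
      norm_num
    · rw [natCast_eq_zero_of_not_coprime _ h, if_neg h]
      norm_num
  rw [h1, add_eq_zero_iff_eq_neg] at hz
  have h2 : μ ≤ ∑ χ ∈ others A, μ * ∏ j, wt χ (m j) := by
    calc μ = ‖(μ : ℂ)‖ := by rw [Complex.norm_real, Real.norm_of_nonneg hμpos.le]
      _ ≤ _ := by
        rw [hz, norm_neg]
        refine le_trans (norm_sum_le _ _) (Finset.sum_le_sum fun χ _ => ?_)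
        rw [norm_mul, norm_prod, hμ, ← Finset.prod_mul_distrib]
        refine le_trans (mul_le_of_le_one_left (Finset.prod_nonneg fun j _ => norm_nonneg _)
          (χ.norm_le_one _)) (le_of_eq (Finset.prod_congr rfl fun j _ => ?_))
        by_cases h : Nat.Coprime (m j) A
        · simp only [wt, if_pos h]; ring
        · simp only [wt, if_neg h, natCast_eq_zero_of_not_coprime χ h]; simp
  rw [← Finset.mul_sum] at h2
  nlinarith

/-- Bit size of the primes in the pool, divided by sixteen. -/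
def tt (L : ℕ) : ℕ := Nat.log 2 L + 12
/-- The primes of the pool are at most `2 ^ ss L`. -/
def ss (L : ℕ) : ℕ := 16 * tt L
/-- Dyadic logarithm of the threshold for small primes. -/
def ii (L : ℕ) : ℕ := 3 * (Nat.log 2 (ss L) + 12)
/-- Exponent of the small primes. -/
def EE (L : ℕ) : ℕ := ii L + 3
/-- Threshold for small primes. -/
def FF (L : ℕ) : ℕ := 2 ^ ii L
/-- Number of primes in the pool. -/
def kk (L : ℕ) : ℕ := 22 * (2 * L + 2)
/-- The primes from which the pool is chosen. -/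
def PS (L : ℕ) : Finset ℕ := Nat.primesLE (2 ^ ss L)

attribute [irreducible] tt ii FF PS kk

theorem one_le_ss (L : ℕ) : 192 ≤ ss L := by unfold ss tt; omega

attribute [irreducible] ss

theorem eight_mul_le (L : ℕ) (hL : 1 ≤ L) : 8 * (4 * L + 6 + ss L) ≤ 2 ^ tt L := by
  have h1 : L < 2 ^ (Nat.log 2 L + 1) := Nat.lt_pow_succ_log_self (by norm_num) L
  have h2 : Nat.log 2 L ≤ L := Nat.log_le_self 2 L
  have h3 : 2 ^ tt L = 2 ^ (Nat.log 2 L + 1) * 2048 := by
    rw [tt, show Nat.log 2 L + 12 = Nat.log 2 L + 1 + 11 from rfl, pow_add]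
    norm_num
  rw [h3]
  simp only [ss, tt]
  omega

theorem card_PS (L : ℕ) : (2 : ℝ) ^ ss L ≤ 2 * (ss L : ℝ) * (PS L).card := by
  have hc : (PS L).card = Nat.primeCounting (2 ^ ss L) := by
    rw [PS, Nat.primesLE_card_eq_primeCounting]
  have h := Chebyshev.pi_ge (2 ^ ss L)
  rw [hc]
  have hs : (192 : ℝ) ≤ ss L := by exact_mod_cast one_le_ss L
  have hlog : (0 : ℝ) < Real.log 2 := Real.log_pos (by norm_num)
  push_cast at h
  rw [Real.log_pow] at h
  rw [div_le_iff₀ (by positivity)] at h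
  have hlog2 : Real.log ((2 : ℝ) ^ ss L + 1) ≤ ((ss L : ℝ) + 1) * Real.log 2 := by
    have e : ((ss L : ℝ) + 1) * Real.log 2 = Real.log ((2 : ℝ) ^ (ss L + 1)) := by
      rw [Real.log_pow]; push_cast; ring
    rw [e]
    refine Real.log_le_log (by positivity) ?_
    rw [pow_succ]
    nlinarith [one_le_pow₀ (M₀ := ℝ) (a := 2) (by norm_num) (n := ss L)]
  have hbig : 2 * ((ss L : ℝ) + 1) ≤ (2 : ℝ) ^ ss L := by
    have h0 : ∀ n : ℕ, 3 ≤ n → 2 * (n + 1) ≤ 2 ^ n := by
      intro n hn
      induction n, hn using Nat.le_induction with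
      | base => norm_num
      | succ n hn ih => rw [pow_succ]; omega
    exact_mod_cast h0 (ss L) (le_trans (by norm_num) (one_le_ss L))
  have h4 : (2 : ℝ) ^ ss L - ((ss L : ℝ) + 1) ≤ (Nat.primeCounting (2 ^ ss L) : ℝ) * ss L :=
    le_of_mul_le_mul_right (by nlinarith) hlog
  linarith

theorem six_mul_le_card (L : ℕ) (hL : 1 ≤ L) : 6 * (L : ℝ) ≤ (PS L).card := by
  have h1 := card_PS L
  have h2 : (ss L : ℝ) ≤ (2 : ℝ) ^ tt L := by
    have := eight_mul_le L hL
    exact_mod_cast (by omega : ss L ≤ 2 ^ tt L)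
  have h3 : 32 * (L : ℝ) ≤ (2 : ℝ) ^ tt L := by
    have := eight_mul_le L hL
    exact_mod_cast (by omega : 32 * L ≤ 2 ^ tt L)
  have h4 : ((2 : ℝ) ^ tt L) ^ 2 ≤ (2 : ℝ) ^ ss L := by
    rw [← pow_mul]
    exact pow_le_pow_right₀ (by norm_num) (by unfold ss; omega)
  have hs : (192 : ℝ) ≤ ss L := by exact_mod_cast one_le_ss L
  nlinarith [mul_le_mul h2 h3 (by positivity) (by positivity)]

open Classical in
/-- Moduli carrying a primitive character with a large sum over the pool primes. -/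
noncomputable def BC (L : ℕ) : Finset ℕ :=
  (Finset.Ioc (FF L) (2 ^ L)).filter fun f => ∃ χ : DirichletCharacter ℂ f,
    χ.IsPrimitive ∧ ((PS L).card : ℝ) / 2 ≤ ‖∑ p ∈ PS L, χ (p : ZMod f)‖

theorem card_dyadic_le (L i : ℕ) (hL : 1 ≤ L) (hi : i ≤ L) :
    (((BC L).filter fun f => Nat.log 2 f = i).card : ℝ) ≤ 40 * ss L * (3 / 2 : ℝ) ^ i := by
  classical
  set X := (BC L).filter fun f => Nat.log 2 f = i with hXdef
  set s := ss L with hs
  set t := tt L with ht
  have hst : s = 16 * t := by rw [hs, ht, ss]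
  have hspos : 0 < s := by have := one_le_ss L; omega
  set r := (2 * i + 3) * 2 / s + 1 with hr
  have hsr1 : 2 * (2 * i + 3) < s * r := by
    have := Nat.lt_mul_div_succ ((2 * i + 3) * 2) hspos
    rw [hr]; omega
  have hsr2 : s * r ≤ 2 * (2 * i + 3) + s := by
    have := Nat.mul_div_le ((2 * i + 3) * 2) s
    rw [hr, Nat.mul_add, mul_one]; omega
  have hr1 : 1 ≤ r := Nat.le_add_left 1 _
  have h8 : 8 * r * s ≤ 2 ^ t := by
    have := eight_mul_le L hL
    rw [← hs, ← ht] at this
    have : 8 * (s * r) ≤ 2 ^ t := by omega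
    linarith
  choose χ hχ using fun f => (show ∃ χ : DirichletCharacter ℂ f, f ∈ X →
      χ.IsPrimitive ∧ ((PS L).card : ℝ) / 2 ≤ ‖∑ p ∈ PS L, χ (p : ZMod f)‖ from by
    by_cases hf : f ∈ X
    · obtain ⟨χ, hχ⟩ := (Finset.mem_filter.1 (Finset.mem_filter.1 hf).1).2
      exact ⟨χ, fun _ => hχ⟩
    · exact ⟨1, fun h => absurd h hf⟩)
  set W : ℝ := ((PS L).card : ℝ) with hW
  have hW0 : 0 < W := by
    have := six_mul_le_card L hL
    have : (1 : ℝ) ≤ L := by exact_mod_cast hL
    linarith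
  set Y : ℝ := (2 : ℝ) ^ s with hY
  have hYW : Y ≤ 2 * (s : ℝ) * W := card_PS L
  set B : ℝ := (2 : ℝ) ^ (2 * i + 2) with hB
  have hd := few_large (PS L) (2 ^ s) r
    (fun p hp => by
      rw [PS, Nat.mem_primesLE] at hp
      exact ⟨hp.2, hp.1⟩)
    X χ B (W / 2) (by positivity)
    (fun f hf => by
      refine ⟨?_, (hχ f hf).1, ?_⟩
      · have := (Finset.mem_Ioc.1 (Finset.mem_filter.1 (Finset.mem_filter.1 hf).1).1).1
        omega
      · have h1 : f < 2 ^ (i + 1) := by
          rw [← (Finset.mem_filter.1 hf).2]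
          exact Nat.lt_pow_succ_log_self (by norm_num) f
        have h1' : (f : ℝ) ≤ (2 : ℝ) ^ (i + 1) := by exact_mod_cast h1.le
        have e : B = ((2 : ℝ) ^ (i + 1)) ^ 2 := by
          rw [hB, ← pow_mul]; congr 1; omega
        rw [e]
        exact pow_le_pow_left₀ (by positivity) h1' 2)
    (fun f hf => (hχ f hf).2)
  push_cast at hd
  set n : ℝ := (X.card : ℝ) with hn
  set Q : ℝ := (8 * (r : ℝ) * s) ^ r with hQ
  have hfac : (r.factorial : ℝ) ≤ (r : ℝ) ^ r := by exact_mod_cast Nat.factorial_le_pow r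
  have hQt : Q ≤ (2 : ℝ) ^ (t * r) := by
    rw [hQ, pow_mul]
    refine pow_le_pow_left₀ (by positivity) ?_ r
    exact_mod_cast h8
  -- the moment is at most `Q` times the square of the threshold over `Y ^ r`
  have hmom : (r.factorial : ℝ) * W ^ r * Y ^ r ≤ Q * ((W / 2) ^ r) ^ 2 := by
    calc (r.factorial : ℝ) * W ^ r * Y ^ r ≤ (r : ℝ) ^ r * W ^ r * (2 * (s : ℝ) * W) ^ r := by
          gcongr
      _ = Q * ((W / 2) ^ r) ^ 2 := by
          rw [hQ, ← pow_mul, mul_comm r 2, pow_mul, ← mul_pow, ← mul_pow, ← mul_pow]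
          congr 1; ring
  have hcond : 2 * B * Q ≤ Y ^ r := by
    calc 2 * B * Q ≤ 2 * B * (2 : ℝ) ^ (t * r) := by
          gcongr
      _ = (2 : ℝ) ^ (2 * i + 3 + t * r) := by
          rw [hB, pow_add (2 : ℝ) (2 * i + 3) (t * r), pow_succ' (2 : ℝ) (2 * i + 2)]
      _ ≤ Y ^ r := by
          rw [hY, ← pow_mul]
          refine pow_le_pow_right₀ (by norm_num) ?_
          rw [hst, mul_assoc] at hsr1 ⊢
          omega
  set M := (r.factorial : ℝ) * W ^ r with hM
  set T2 := ((W / 2) ^ r) ^ 2 with hT2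
  have hB0 : 0 ≤ B := by positivity
  have hY1 : (1 : ℝ) ≤ Y ^ r := one_le_pow₀ (one_le_pow₀ (by norm_num))
  have hMB : 2 * (M * B) ≤ T2 := by
    have h1 : 2 * (M * B) * Y ^ r ≤ T2 * Y ^ r := by
      calc 2 * (M * B) * Y ^ r = 2 * B * (M * Y ^ r) := by ring
        _ ≤ 2 * B * (Q * T2) := mul_le_mul_of_nonneg_left hmom (by positivity)
        _ = (2 * B * Q) * T2 := by ring
        _ ≤ Y ^ r * T2 := mul_le_mul_of_nonneg_right hcond (by positivity)
        _ = _ := by ring
    exact le_of_mul_le_mul_right h1 (by positivity)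
  have hn4 : n ≤ 4 * Q := by
    have hn0 : 0 ≤ n := by positivity
    have h1 : n ^ 2 * T2 ≤ M * (n * (Y ^ r + 1) + n ^ 2 * B) := by
      rw [hT2, ← mul_pow]; exact hd
    have hM0 : 0 ≤ M := by positivity
    have hT20 : 0 < T2 := by positivity
    have h2 : n ^ 2 * T2 ≤ 4 * Q * n * T2 := by
      have a1 := mul_le_mul_of_nonneg_left hMB (sq_nonneg n)
      have a2 := mul_le_mul_of_nonneg_left hY1 (mul_nonneg hM0 hn0)
      have a3 := mul_le_mul_of_nonneg_left hmom hn0
      nlinarith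
    rcases eq_or_lt_of_le hn0 with h | h
    · rw [← h]; positivity
    · have h3 : n * (n * T2) ≤ 4 * Q * (n * T2) := by linarith
      exact le_of_mul_le_mul_right h3 (by positivity)
  refine le_trans hn4 ?_
  have hi1 : (1 : ℝ) ≤ (3 / 2 : ℝ) ^ i := one_le_pow₀ (by norm_num)
  have hsR : (192 : ℝ) ≤ s := by exact_mod_cast one_le_ss L
  rcases eq_or_lt_of_le hr1 with h | h
  · rw [hQ, ← h]
    push_cast
    nlinarith
  · have hs2 : s ≤ 2 * (2 * i + 3) := by
      have : s * 2 ≤ s * r := Nat.mul_le_mul_left s h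
      omega
    have hu : 2 * (t * r) ≤ i + 1 := by
      rw [hst, mul_assoc] at hsr2
      omega
    have h2u : (2 : ℝ) ^ (t * r) ≤ 2 * (3 / 2 : ℝ) ^ i := by
      refine le_of_pow_le_pow_left₀ (n := 2) (by norm_num) (by positivity) ?_
      calc ((2 : ℝ) ^ (t * r)) ^ 2 ≤ (2 : ℝ) ^ (i + 1) := by
            rw [← pow_mul]; exact pow_le_pow_right₀ (by norm_num) (by omega)
        _ ≤ 4 * ((9 : ℝ) / 4) ^ i := by
            rw [pow_succ, mul_comm]
            exact mul_le_mul (by norm_num) (pow_le_pow_left₀ (by norm_num) (by norm_num) i)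
              (by positivity) (by norm_num)
        _ = _ := by
            rw [mul_pow, ← pow_mul (3 / 2 : ℝ), mul_comm i 2, pow_mul]; norm_num
    nlinarith

theorem sum_BC_le (L : ℕ) (hL : 1 ≤ L) : ∑ f ∈ BC L, (1 : ℝ) / f ≤ 1 / 8 := by
  classical
  have hmaps : ∀ f ∈ BC L, Nat.log 2 f ∈ Finset.Ico (ii L) (L + 1) := by
    intro f hf
    have hf' := Finset.mem_Ioc.1 (Finset.mem_filter.1 hf).1
    rw [FF] at hf'
    rw [Finset.mem_Ico]
    constructor
    · calc ii L = Nat.log 2 (2 ^ ii L) := (Nat.log_pow (by norm_num) _).symm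
        _ ≤ _ := Nat.log_mono_right (le_of_lt hf'.1)
    · calc Nat.log 2 f ≤ Nat.log 2 (2 ^ L) := Nat.log_mono_right hf'.2
        _ = L := Nat.log_pow (by norm_num) _
        _ < L + 1 := by omega
  rw [← Finset.sum_fiberwise_of_maps_to hmaps]
  have hs0 : (192 : ℝ) ≤ ss L := by exact_mod_cast one_le_ss L
  calc ∑ i ∈ Finset.Ico (ii L) (L + 1), ∑ f ∈ BC L with Nat.log 2 f = i, (1 : ℝ) / f
      ≤ ∑ i ∈ Finset.Ico (ii L) (L + 1), 40 * (ss L : ℝ) * (3 / 4 : ℝ) ^ i := by
        refine Finset.sum_le_sum fun i hi => ?_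
        have hiL : i ≤ L := by have := (Finset.mem_Ico.1 hi).2; omega
        refine le_trans (Finset.sum_le_card_nsmul _ _ ((1 : ℝ) / (2 : ℝ) ^ i) fun f hf => ?_) ?_
        · obtain ⟨hf1, hf2⟩ := Finset.mem_filter.1 hf
          have hpos : f ≠ 0 := by
            have := (Finset.mem_Ioc.1 (Finset.mem_filter.1 hf1).1).1
            omega
          have : 2 ^ i ≤ f := hf2 ▸ Nat.pow_log_le_self 2 hpos
          refine one_div_le_one_div_of_le (by positivity) ?_
          exact_mod_cast this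
        · rw [nsmul_eq_mul]
          calc _ ≤ 40 * (ss L : ℝ) * (3 / 2 : ℝ) ^ i * (1 / (2 : ℝ) ^ i) :=
                mul_le_mul_of_nonneg_right (card_dyadic_le L i hL hiL) (by positivity)
            _ = _ := by
                rw [mul_assoc (40 * (ss L : ℝ)), mul_one_div, ← div_pow]; norm_num
    _ ≤ 40 * (ss L : ℝ) * (4 * (3 / 4 : ℝ) ^ ii L) := by
        rw [← Finset.mul_sum]
        refine mul_le_mul_of_nonneg_left ?_ (by positivity)
        rw [Finset.sum_Ico_eq_sum_range]
        simp only [pow_add, ← Finset.mul_sum]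
        rw [mul_comm (4 : ℝ)]
        refine mul_le_mul_of_nonneg_left ?_ (by positivity)
        rw [geom_sum_eq (by norm_num)]
        have : (0 : ℝ) ≤ (3 / 4 : ℝ) ^ (L + 1 - ii L) := by positivity
        rw [div_le_iff_of_neg (by norm_num)]
        linarith
    _ ≤ 1 / 8 := by
        have h1 : (3 / 4 : ℝ) ^ ii L ≤ (1 / 2 : ℝ) ^ (Nat.log 2 (ss L) + 12) := by
          rw [ii, pow_mul]
          exact pow_le_pow_left₀ (by norm_num) (by norm_num) _
        have h2 : (ss L : ℝ) ≤ 2 * (2 : ℝ) ^ Nat.log 2 (ss L) := by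
          have := Nat.lt_pow_succ_log_self (b := 2) (by norm_num) (ss L)
          rw [← pow_succ']
          exact_mod_cast this.le
        have h3 : (1 / 2 : ℝ) ^ (Nat.log 2 (ss L) + 12) * (2 : ℝ) ^ Nat.log 2 (ss L)
            = 1 / 4096 := by
          rw [pow_add, mul_right_comm, ← mul_pow]; norm_num
        have h4 : (ss L : ℝ) * (3 / 4 : ℝ) ^ ii L ≤ 2 / 4096 := by
          calc (ss L : ℝ) * (3 / 4 : ℝ) ^ ii L
              ≤ (2 * (2 : ℝ) ^ Nat.log 2 (ss L)) * (1 / 2 : ℝ) ^ (Nat.log 2 (ss L) + 12) :=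
                mul_le_mul h2 h1 (by positivity) (by positivity)
            _ = _ := by linear_combination 2 * h3
        linarith

/-- A character with a large mean weight comes from a conductor in the bad set. -/
theorem conductor_mem_BC (L A : ℕ) (hL : 1 ≤ L) (hA : 2 ≤ A) (hA2 : A ≤ 2 ^ L)
    (hbig : ∀ p, p.Prime → p ∣ A → FF L < p) (χ : DirichletCharacter ℂ A) (hχ : χ ≠ 1)
    (hw : 31 / 32 * ((PS L).card : ℝ) < ∑ p ∈ PS L, wt χ p) :
    χ.conductor ∈ BC L := by
  classical
  haveI : NeZero A := ⟨by omega⟩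
  have hc0 : χ.conductor ≠ 0 := χ.conductor_ne_zero
  have hc1 : χ.conductor ≠ 1 := fun h => hχ ((χ.eq_one_iff_conductor_eq_one).2 h)
  have hcA : χ.conductor ∣ A := χ.conductor_dvd_level
  refine Finset.mem_filter.2 ⟨Finset.mem_Ioc.2 ⟨?_, ?_⟩, χ.primitiveCharacter,
    χ.primitiveCharacter_isPrimitive, ?_⟩
  · obtain ⟨p, hp, hpc⟩ := Nat.exists_prime_and_dvd hc1
    exact lt_of_lt_of_le (hbig p hp (hpc.trans hcA)) (Nat.le_of_dvd (Nat.pos_of_ne_zero hc0) hpc)
  · exact le_trans (Nat.le_of_dvd (by omega) hcA) hA2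
  set z : ℕ → ℝ := fun p => if Nat.Coprime p A then 0 else 1 with hz
  have hZ : ∑ p ∈ PS L, z p ≤ (L : ℝ) := by
    have h1 : ∑ p ∈ PS L, z p = (((PS L).filter fun p => ¬ Nat.Coprime p A).card : ℝ) := by
      rw [hz, Finset.natCast_card_filter]
      refine Finset.sum_congr rfl fun p _ => ?_
      by_cases h : Nat.Coprime p A <;> simp [h]
    rw [h1]
    have h2 : ((PS L).filter fun p => ¬ Nat.Coprime p A) ⊆ A.primeFactors := by
      intro p hp
      obtain ⟨hp1, hp2⟩ := Finset.mem_filter.1 hp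
      rw [PS, Nat.mem_primesLE] at hp1
      rw [Nat.mem_primeFactors]
      exact ⟨hp1.2, by rwa [hp1.2.coprime_iff_not_dvd, not_not] at hp2, by omega⟩
    have h3 : A.primeFactors.card ≤ L := by
      have h4 : 2 ^ A.primeFactors.card ≤ ∏ p ∈ A.primeFactors, p :=
        Finset.pow_card_le_prod _ _ _ fun p hp => (Nat.prime_of_mem_primeFactors hp).two_le
      have h5 := Nat.le_of_dvd (by omega) A.prod_primeFactors_dvd
      exact (Nat.pow_le_pow_iff_right (by norm_num)).1 (le_trans h4 (le_trans h5 hA2))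
    exact_mod_cast le_trans (Finset.card_le_card h2) h3
  have hpt : ∀ p ∈ PS L, 4 * wt χ p - 3 - z p ≤ (χ.primitiveCharacter (p : ZMod _)).re + z p := by
    intro p _
    by_cases h : Nat.Coprime p A
    · have e : χ.primitiveCharacter (p : ZMod _) = χ (p : ZMod A) := by
        have := χ.primitiveCharacter_apply_of_isCoprime (a := (p : ℤ))
          (Nat.isCoprime_iff_coprime.2 h)
        simpa using this
      simp only [hz, wt, if_pos h, e]
      set w := χ (p : ZMod A) with hwdef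
      have hn : ‖1 + w‖ ^ 2 = 1 + 2 * w.re + ‖w‖ ^ 2 := by
        rw [Complex.sq_norm, Complex.sq_norm, Complex.normSq_apply, Complex.normSq_apply]
        simp only [Complex.add_re, Complex.one_re, Complex.add_im, Complex.one_im, zero_add]
        ring
      have : ‖w‖ ≤ 1 := χ.norm_le_one _
      nlinarith [sq_nonneg (‖1 + w‖ - 2), norm_nonneg w]
    · simp only [hz, wt, if_neg h]
      have := abs_le.1 (le_trans (Complex.abs_re_le_norm _)
        (χ.primitiveCharacter.norm_le_one (p : ZMod _)))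
      linarith [this.1]
  have hsum := Finset.sum_le_sum hpt
  simp only [Finset.sum_sub_distrib, Finset.sum_add_distrib, Finset.sum_const, nsmul_eq_mul,
    ← Finset.mul_sum, ← Complex.re_sum] at hsum
  have h6 := six_mul_le_card L hL
  have := Complex.re_le_norm (∑ p ∈ PS L, χ.primitiveCharacter (p : ZMod _))
  linarith

/-- The pool: a product whose divisors reach every unit class of every good modulus. -/
theorem exists_pool (L : ℕ) (hL : 1 ≤ L) :
    ∃ P : ℕ, 0 < P ∧ P ≤ 2 ^ (ss L * kk L) ∧ ∀ A C : ℕ, 2 ≤ A → A ≤ 2 ^ L →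
      Nat.Coprime C A → (∀ p, p.Prime → p ∣ A → FF L < p) → (∀ f ∈ BC L, ¬ f ∣ A) →
      ∃ d, d ∣ P ∧ A ∣ C * d + 1 := by
  classical
  set k := kk L
  set W : ℝ := ((PS L).card : ℝ) with hW
  have hW0 : 0 < W := by
    have := six_mul_le_card L hL
    have : (1 : ℝ) ≤ L := by exact_mod_cast hL
    linarith
  set G := (Finset.Icc 2 (2 ^ L)).filter fun A => ∀ χ : DirichletCharacter ℂ A, χ ≠ 1 →
    ∑ p ∈ PS L, wt χ p ≤ 31 / 32 * W with hG
  let T : (Fin k → ℕ) → ℝ := fun v => ∑ A ∈ G,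
    ∑ χ ∈ others A, ∏ j, wt χ (v j)
  have hex : ∃ v ∈ Fintype.piFinset (fun _ : Fin k => PS L), T v < 1 := by
    refine Finset.exists_lt_of_sum_lt ?_
    rw [Finset.sum_const, Fintype.card_piFinset_const, nsmul_eq_mul, mul_one]
    push_cast
    calc ∑ v ∈ Fintype.piFinset (fun _ : Fin k => PS L), T v
        = ∑ A ∈ G, ∑ χ ∈ others A,
            (∑ p ∈ PS L, wt χ p) ^ k := by
          simp only [T]
          rw [Finset.sum_comm]
          refine Finset.sum_congr rfl fun A _ => ?_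
          rw [Finset.sum_comm]
          exact Finset.sum_congr rfl fun χ _ => (Finset.sum_pow' _ _ _).symm
      _ ≤ ∑ A ∈ G, (2 : ℝ) ^ L * (31 / 32 * W) ^ k := by
          refine Finset.sum_le_sum fun A hA => ?_
          obtain ⟨hA1, hA2⟩ := Finset.mem_filter.1 hA
          rw [Finset.mem_Icc] at hA1
          haveI : NeZero A := ⟨by omega⟩
          refine le_trans (Finset.sum_le_card_nsmul _ _ ((31 / 32 * W) ^ k) fun χ hχ => ?_) ?_
          · exact pow_le_pow_left₀ (Finset.sum_nonneg fun p _ => wt_nonneg _ _)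
              (hA2 χ (ne_one_of_mem_others hχ)) k
          · rw [nsmul_eq_mul]
            refine mul_le_mul_of_nonneg_right ?_ (by positivity)
            have h1 : (others A).card ≤ A := card_others_le A
            exact_mod_cast le_trans h1 hA1.2
      _ ≤ (2 : ℝ) ^ L * ((2 : ℝ) ^ L * (31 / 32 * W) ^ k) := by
          rw [Finset.sum_const, nsmul_eq_mul]
          refine mul_le_mul_of_nonneg_right ?_ (by positivity)
          have : G.card ≤ 2 ^ L := by
            refine le_trans (Finset.card_filter_le _ _) ?_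
            rw [Nat.card_Icc]
            have := Nat.one_le_two_pow (n := L)
            omega
          exact_mod_cast this
      _ < W ^ k := by
          have h22 : (31 / 32 : ℝ) ^ k ≤ (1 / 2 : ℝ) ^ (2 * L + 2) := by
            simp only [k, kk]
            rw [pow_mul]
            exact pow_le_pow_left₀ (by positivity) (by norm_num) _
          have h23 : (2 : ℝ) ^ L * (2 : ℝ) ^ L * (1 / 2 : ℝ) ^ (2 * L + 2) = 1 / 4 := by
            rw [pow_add, ← pow_add, ← two_mul L, ← mul_assoc, ← mul_pow]; norm_num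
          have hWk : 0 < W ^ k := by positivity
          calc (2 : ℝ) ^ L * ((2 : ℝ) ^ L * (31 / 32 * W) ^ k)
              = ((2 : ℝ) ^ L * (2 : ℝ) ^ L * (31 / 32 : ℝ) ^ k) * W ^ k := by
                rw [mul_pow]; ring
            _ ≤ (1 / 4) * W ^ k := by
                rw [← h23]; gcongr
            _ < W ^ k := by linarith
  obtain ⟨v, hv, hvT⟩ := hex
  rw [Fintype.mem_piFinset] at hv
  have hvp : ∀ j, (v j).Prime ∧ v j ≤ 2 ^ ss L := fun j => by
    have := hv j
    rw [PS, Nat.mem_primesLE] at this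
    exact ⟨this.2, this.1⟩
  refine ⟨∏ j, v j, Finset.prod_pos fun j _ => (hvp j).1.pos, ?_, ?_⟩
  · refine le_trans (Finset.prod_le_pow_card _ _ _ fun j _ => (hvp j).2) ?_
    rw [Finset.card_univ, Fintype.card_fin, ← pow_mul]
  intro A C hA2 hAL hC hbig hBC
  haveI : NeZero A := ⟨by omega⟩
  have hAG : A ∈ G := by
    refine Finset.mem_filter.2 ⟨Finset.mem_Icc.2 ⟨hA2, hAL⟩, fun χ hχ => ?_⟩
    by_contra h
    exact hBC _ (conductor_mem_BC L A hL hA2 hAL hbig χ hχ (not_le.1 h)) χ.conductor_dvd_level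
  have hone : ∑ χ ∈ others A, ∏ j, wt χ (v j) < 1 := by
    refine lt_of_le_of_lt ?_ hvT
    exact Finset.single_le_sum
      (f := fun B => ∑ χ ∈ others B, ∏ j, wt χ (v j))
      (fun B _ => Finset.sum_nonneg fun χ _ => Finset.prod_nonneg fun j _ => wt_nonneg _ _) hAG
  have hCu : IsUnit (C : ZMod A) := (ZMod.isUnit_iff_coprime _ _).2 hC
  have ht : IsUnit (-(C : ZMod A)⁻¹) :=
    (IsUnit.of_mul_eq_one _ (ZMod.inv_mul_of_unit _ hCu)).neg
  obtain ⟨J, hJ⟩ := subset_product v hone _ ht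
  refine ⟨∏ j ∈ J, v j, Finset.prod_dvd_prod_of_subset _ _ _ (Finset.subset_univ J), ?_⟩
  rw [← ZMod.natCast_eq_zero_iff, Nat.cast_add, Nat.cast_mul, Nat.cast_prod, hJ,
    Nat.cast_one, mul_neg, ZMod.mul_inv_of_unit _ hCu, neg_add_cancel]

end Vale.Agent.P012
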