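import Mathlib

/-!
Sums of unit fractions with repetition, and how to remove the repetitions.
-/

namespace Vale.Agent.P012

/-- `x` is a sum of at most `n` unit fractions, repetitions allowed. -/
def Rep (n : ℕ) (x : ℚ) : Prop :=
  ∃ s : Multiset ℕ, s.card ≤ n ∧ (∀ d ∈ s, 0 < d) ∧ x = (s.map fun d : ℕ => (1 : ℚ) / d).sum

theorem rep_zero (n : ℕ) : Rep n 0 := ⟨0, by simp, by simp, by simp⟩

theorem rep_unit {d : ℕ} (hd : 0 < d) : Rep 1 ((1 : ℚ) / d) :=
  ⟨{d}, by simp, by simp [hd], by simp⟩

theorem Rep.add {m n : ℕ} {x y : ℚ} (hx : Rep m x) (hy : Rep n y) : Rep (m + n) (x + y) := by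
  obtain ⟨s, hs, hsp, rfl⟩ := hx
  obtain ⟨t, ht, htp, rfl⟩ := hy
  refine ⟨s + t, by simp only [Multiset.card_add]; omega, ?_, by simp⟩
  intro d hd
  rcases Multiset.mem_add.1 hd with h | h
  · exact hsp d h
  · exact htp d h

theorem Rep.mono {m n : ℕ} {x : ℚ} (hx : Rep m x) (h : m ≤ n) : Rep n x := by
  obtain ⟨s, hs, hsp, hsum⟩ := hx
  exact ⟨s, le_trans hs h, hsp, hsum⟩

theorem inv_le_sum {s : Multiset ℕ} {d : ℕ} (hd : d ∈ s) :
    (1 : ℚ) / d ≤ (s.map fun e : ℕ => (1 : ℚ) / e).sum := by
  obtain ⟨t, rfl⟩ := Multiset.exists_cons_of_mem hd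
  rw [Multiset.map_cons, Multiset.sum_cons]
  have : 0 ≤ (t.map fun e : ℕ => (1 : ℚ) / e).sum := by
    refine Multiset.sum_nonneg fun a ha => ?_
    obtain ⟨e, _, rfl⟩ := Multiset.mem_map.1 ha
    positivity
  linarith

/-- A sum smaller than one of at most `n` unit fractions is a sum of at most `n` distinct ones. -/
theorem Rep.distinct : ∀ (n : ℕ) (x : ℚ), x < 1 → Rep n x →
    ∃ S : Finset ℕ, S.card ≤ n ∧ (∀ d ∈ S, 2 ≤ d) ∧ x = ∑ d ∈ S, (1 : ℚ) / d := by
  intro n
  induction n with
  | zero =>
    rintro x - ⟨s, hs, -, hsum⟩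
    have : s = 0 := Multiset.card_eq_zero.1 (Nat.le_zero.1 hs)
    exact ⟨∅, by simp, by simp, by simp [hsum, this]⟩
  | succ n ih =>
    intro x hx hrep
    classical
    let Q : ℕ → Prop := fun d => ∃ s : Multiset ℕ, s.card ≤ n + 1 ∧ (∀ e ∈ s, 0 < e) ∧
      x = (s.map fun e : ℕ => (1 : ℚ) / e).sum ∧ d ∈ s
    by_cases hQ : ∃ d, Q d
    swap
    · obtain ⟨s, hs, hsp, hsum⟩ := hrep
      have : s = 0 := by
        by_contra h
        obtain ⟨d, hd⟩ := Multiset.exists_mem_of_ne_zero h
        exact hQ ⟨d, s, hs, hsp, hsum, hd⟩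
      exact ⟨∅, by simp, by simp, by simp [hsum, this]⟩
    obtain ⟨s, hs, hsp, hsum, hd⟩ := Nat.find_spec hQ
    set d := Nat.find hQ with hddef
    have hmin : ∀ e, e < d → ¬ Q e := fun e he => Nat.find_min hQ he
    have hd0 : 0 < d := hsp d hd
    have hd2 : 2 ≤ d := by
      by_contra h
      have h1 : d = 1 := by omega
      have h2 := inv_le_sum hd
      rw [h1] at h2
      rw [← hsum] at h2
      norm_num at h2
      linarith
    obtain ⟨t, rfl⟩ := Multiset.exists_cons_of_mem hd
    rw [Multiset.map_cons, Multiset.sum_cons] at hsum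
    rw [Multiset.card_cons] at hs
    have hdpos : (0 : ℚ) < 1 / (d : ℚ) := by positivity
    obtain ⟨S, hS, hS2, hSsum⟩ := ih (t.map fun e : ℕ => (1 : ℚ) / e).sum (by linarith)
      ⟨t, by omega, fun e he => hsp e (Multiset.mem_cons_of_mem he), rfl⟩
    have hnew : ∀ (u : Multiset ℕ) (e : ℕ), u.card ≤ n + 1 → (∀ f ∈ u, 0 < f) →
        x = (u.map fun f : ℕ => (1 : ℚ) / f).sum → e ∈ u → d ≤ e := by
      intro u e h1 h2 h3 h4
      by_contra h
      exact hmin e (by omega) ⟨u, h1, h2, h3, h4⟩
    have hdS : d ∉ S := by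
      intro hdmem
      have herase : (S.erase d).card + 1 = S.card := Finset.card_erase_add_one hdmem
      have hpos : ∀ f ∈ (S.erase d).1, 0 < f := fun f hf => by
        have hfS : f ∈ S := Finset.mem_of_mem_erase hf
        have := hS2 f hfS
        omega
      have hval : x = (1 : ℚ) / d + (1 / d + ∑ f ∈ S.erase d, (1 : ℚ) / f) := by
        rw [Finset.add_sum_erase S (fun f : ℕ => (1 : ℚ) / f) hdmem, ← hSsum]
        exact hsum
      have hcard : (S.erase d).1.card = (S.erase d).card := rfl
      rcases Nat.even_or_odd d with ⟨c, hc⟩ | ⟨c, hc⟩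
      · have hc0 : 0 < c := by omega
        have hle := hnew (c ::ₘ (S.erase d).1) c
          (by rw [Multiset.card_cons]; omega)
          (by
            intro f hf
            rcases Multiset.mem_cons.1 hf with rfl | hf
            · exact hc0
            · exact hpos f hf)
          (by
            rw [Multiset.map_cons, Multiset.sum_cons, hval, ← add_assoc]
            have : (1 : ℚ) / d + 1 / d = 1 / c := by
              rw [hc]; push_cast; field_simp
            rw [this]; rfl)
          (Multiset.mem_cons_self _ _)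
        omega
      · have hc1 : 1 ≤ c := by omega
        have hle := hnew ((c + 1) ::ₘ (d * (c + 1)) ::ₘ (S.erase d).1) (c + 1)
          (by rw [Multiset.card_cons, Multiset.card_cons]; omega)
          (by
            intro f hf
            rcases Multiset.mem_cons.1 hf with rfl | hf
            · omega
            rcases Multiset.mem_cons.1 hf with rfl | hf
            · exact Nat.mul_pos hd0 (by omega)
            · exact hpos f hf)
          (by
            rw [Multiset.map_cons, Multiset.sum_cons, Multiset.map_cons, Multiset.sum_cons, hval,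
              ← add_assoc, ← add_assoc]
            have : (1 : ℚ) / d + 1 / d = 1 / ((c + 1 : ℕ) : ℚ) + 1 / ((d * (c + 1) : ℕ) : ℚ) := by
              rw [hc]; push_cast; field_simp; ring
            rw [this]; rfl)
          (Multiset.mem_cons_self _ _)
        omega
    refine ⟨insert d S, ?_, ?_, ?_⟩
    · rw [Finset.card_insert_of_notMem hdS]; omega
    · intro f hf
      rcases Finset.mem_insert.1 hf with rfl | hf
      · exact hd2
      · exact hS2 f hf
    · rw [Finset.sum_insert hdS, hsum, hSsum]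

end Vale.Agent.P012
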