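import Vale.Agent.P012.Piece
import Vale.Agent.P012.Expansion

/-!
The upper bound for the number of distinct unit fractions.
-/

namespace Vale.Agent.P012

theorem cube_le (n : ℕ) : (n + 12) ^ 3 ≤ 1728 * 2 ^ n := by
  induction n with
  | zero => norm_num
  | succ n ih =>
    have h : (n + 1 + 12) ^ 3 ≤ 2 * (n + 12) ^ 3 := by
      ring_nf
      nlinarith [sq_nonneg n, Nat.zero_le (n ^ 3)]
    rw [pow_succ 2 n]
    linarith

/-- A universal constant for the exponent bound. -/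
def C0 : ℕ := 88 + 2 ^ 39 * (4096 * 1728)

theorem QQ_le (L : ℕ) (hL : 1 ≤ L) : QQ L ≤ C0 * (ss L * L) := by
  have hs := one_le_ss L
  have hkk : kk L ≤ 88 * L := by simp only [kk]; omega
  have hlog : 2 ^ Nat.log 2 (ss L) ≤ ss L := Nat.pow_log_le_self 2 (by omega)
  have hE : EE L ≤ 4 * ss L := by
    have := Nat.log_le_self 2 (ss L)
    simp only [EE, ii]
    omega
  have hF : FF L ≤ 2 ^ 36 * (ss L) ^ 3 := by
    rw [FF, ii, show 3 * (Nat.log 2 (ss L) + 12) = Nat.log 2 (ss L) * 3 + 36 by ring, pow_add,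
      pow_mul, mul_comm]
    exact Nat.mul_le_mul_left _ (Nat.pow_le_pow_left hlog 3)
  have h3 : (ss L) ^ 3 ≤ 4096 * 1728 * L := by
    rw [ss, mul_pow, tt]
    calc (16 : ℕ) ^ 3 * (Nat.log 2 L + 12) ^ 3 ≤ 16 ^ 3 * (1728 * 2 ^ Nat.log 2 L) :=
          Nat.mul_le_mul_left _ (cube_le _)
      _ ≤ 16 ^ 3 * (1728 * L) :=
          Nat.mul_le_mul_left _ (Nat.mul_le_mul_left _ (Nat.pow_log_le_self 2 (by omega)))
      _ = _ := by ring
  have h1 : ss L * kk L ≤ ss L * (88 * L) := Nat.mul_le_mul_left _ hkk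
  have h2 : 2 * FF L * EE L ≤ 2 ^ 39 * (4096 * 1728) * (ss L * L) := by
    calc 2 * FF L * EE L ≤ 2 * (2 ^ 36 * (4096 * 1728 * L)) * (4 * ss L) :=
          Nat.mul_le_mul (Nat.mul_le_mul_left _ (le_trans hF (Nat.mul_le_mul_left _ h3))) hE
      _ = (2 * 2 ^ 36 * 4) * (4096 * 1728) * (ss L * L) := by ring
      _ ≤ _ := Nat.mul_le_mul_right _ (Nat.mul_le_mul_right _ (by norm_num))
  rw [QQ, C0, add_mul]
  linarith

/-- Every `a / b < 1` is a sum of `O(ss L)` distinct unit fractions. -/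
theorem few_fractions (a b L : ℕ) (hab : a < b) (hL : 3 ≤ L) (hbL : b ≤ 2 ^ L) :
    ∃ S : Finset ℕ, S.card ≤ (19 * C0 + 28) * ss L ∧ (∀ d ∈ S, 2 ≤ d) ∧
      (a : ℚ) / b = ∑ d ∈ S, (1 : ℚ) / d := by
  obtain ⟨M, hM, hMle, piece⟩ := exists_nice L (by omega)
  set E0 := QQ L / L + 1 with hE0
  have hQE : QQ L ≤ L * E0 := by
    rw [hE0]; exact (Nat.lt_mul_div_succ _ (by omega)).le
  have hE0le : E0 ≤ C0 * ss L + 1 := by
    have h : QQ L / L ≤ C0 * ss L := by
      refine Nat.div_le_of_le_mul ?_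
      calc QQ L ≤ C0 * (ss L * L) := QQ_le L (by omega)
        _ = _ := by ring
    omega
  set j1 := Nat.log 2 L + 2 with hj1
  have hj1L : 2 * L ≤ 2 ^ j1 := by
    have := Nat.lt_pow_succ_log_self (b := 2) (by norm_num) L
    rw [hj1, pow_succ']
    omega
  have hj1s : j1 ≤ ss L := by simp only [hj1, ss, tt]; omega
  have hrep := rep_of_pieces a b E0 L M j1 (3 * E0) hL hab hbL hM
    (le_trans hMle (Nat.pow_le_pow_right (by norm_num) hQE)) hj1L
    (by
      calc L * E0 ≤ (3 * (L - 2)) * E0 := Nat.mul_le_mul_right _ (by omega)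
        _ = _ := by ring)
    piece
  have hlt : (a : ℚ) / b < 1 := by
    rw [div_lt_one (by exact_mod_cast (by omega : 0 < b))]
    exact_mod_cast hab
  obtain ⟨S, h1, h2, h3⟩ := Rep.distinct _ _ hlt hrep
  refine ⟨S, le_trans h1 ?_, h2, h3⟩
  have hs := one_le_ss L
  rw [add_mul, mul_assoc]
  omega

theorem upper_bound (a b : ℕ) (hab : a < b) (hb : 16 ≤ b) :
    ∃ S : Finset ℕ, (∀ d ∈ S, 2 ≤ d) ∧
      (S.card : ℝ) ≤ 320 * ((19 * C0 + 28 : ℕ) : ℝ) * Real.log (Real.log b) ∧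
      (a : ℚ) / b = ∑ d ∈ S, (1 : ℚ) / d := by
  set L := Nat.log 2 b + 3 with hL
  have hbL : b ≤ 2 ^ L := by
    refine le_trans (Nat.lt_pow_succ_log_self (b := 2) (by norm_num) b).le ?_
    exact Nat.pow_le_pow_right (by norm_num) (by omega)
  obtain ⟨S, h1, h2, h3⟩ := few_fractions a b L hab (by omega) hbL
  refine ⟨S, h2, ?_, h3⟩
  have hl2 := Real.log_two_gt_d9
  have hl2' := Real.log_two_lt_d9
  have hlb : (2.772 : ℝ) < Real.log b := by
    have h16 : Real.log 16 ≤ Real.log b := Real.log_le_log (by norm_num) (by exact_mod_cast hb)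
    have e : Real.log 16 = 4 * Real.log 2 := by
      rw [show (16 : ℝ) = 2 ^ 4 by norm_num, Real.log_pow]; norm_num
    linarith
  have hll : 1 ≤ Real.log (Real.log b) := by
    rw [Real.le_log_iff_exp_le (by linarith)]
    have := Real.exp_one_lt_d9
    linarith
  have hLlog : (L : ℝ) ≤ 8 * Real.log b := by
    have h4 : (Nat.log 2 b : ℝ) * Real.log 2 ≤ Real.log b := by
      rw [← Real.log_pow]
      refine Real.log_le_log (by positivity) ?_
      exact_mod_cast Nat.pow_log_le_self 2 (by omega : b ≠ 0)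
    have h5 : (Nat.log 2 b : ℝ) * (1 / 2) ≤ Real.log b :=
      le_trans (mul_le_mul_of_nonneg_left (by linarith) (by positivity)) h4
    have h6 : (L : ℝ) = (Nat.log 2 b : ℝ) + 3 := by rw [hL]; push_cast; ring
    linarith
  have hlogL : (Nat.log 2 L : ℝ) * Real.log 2 ≤ 3 * Real.log 2 + Real.log (Real.log b) := by
    calc (Nat.log 2 L : ℝ) * Real.log 2 ≤ Real.log (L : ℝ) := by
          rw [← Real.log_pow]
          refine Real.log_le_log (by positivity) ?_
          exact_mod_cast Nat.pow_log_le_self 2 (by omega : L ≠ 0)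
      _ ≤ Real.log (2 ^ 3 * Real.log b) := by
          refine Real.log_le_log (by exact_mod_cast (by omega : 0 < L)) ?_
          linarith
      _ = _ := by rw [Real.log_mul (by norm_num) (by linarith), Real.log_pow]; norm_num
  have ht : (tt L : ℝ) ≤ 20 * Real.log (Real.log b) := by
    have e : (tt L : ℝ) = (Nat.log 2 L : ℝ) + 12 := by simp only [tt]; push_cast; ring
    have h5 : (Nat.log 2 L : ℝ) * (1 / 2) ≤ 3 * Real.log 2 + Real.log (Real.log b) :=
      le_trans (mul_le_mul_of_nonneg_left (by linarith) (by positivity)) hlogL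
    linarith
  calc (S.card : ℝ) ≤ (((19 * C0 + 28) * ss L : ℕ) : ℝ) := by exact_mod_cast h1
    _ = ((19 * C0 + 28 : ℕ) : ℝ) * (16 * (tt L : ℝ)) := by simp only [ss]; push_cast; ring
    _ ≤ ((19 * C0 + 28 : ℕ) : ℝ) * (16 * (20 * Real.log (Real.log b))) := by gcongr
    _ = _ := by ring

end Vale.Agent.P012
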